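import Mathlib

/-! Finite labelled reversible systems and their path expectations. -/

namespace Vale.Agent.P125.Pos

open Finset

structure Sys (S E : Type) [Fintype S] [DecidableEq S] [Fintype E] [DecidableEq E] where
  src : E → S
  tgt : E → S
  inv : E → E
  μ : E → ℝ
  μ_nonneg : ∀ e, 0 ≤ μ e
  inv_inv : ∀ e, inv (inv e) = e
  src_inv : ∀ e, src (inv e) = tgt e
  μ_inv : ∀ e, μ (inv e) = μ e
  total : ∑ e, μ e = 1

namespace Sys

variable {S E : Type} [Fintype S] [DecidableEq S] [Fintype E] [DecidableEq E] (Y : Sys S E)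

/-- stationary weight of a state -/
noncomputable def wt (z : S) : ℝ := ∑ e, if Y.src e = z then Y.μ e else 0

/-- expectation over paths of `T` edges starting at `z` -/
noncomputable def pz : (T : ℕ) → S → ((Fin T → E) → ℝ) → ℝ
  | 0, _, G => G Fin.elim0
  | T + 1, z, G => ∑ e, if Y.src e = z then
      Y.μ e / Y.wt z * pz T (Y.tgt e) (fun q => G (Fin.cons e q)) else 0

/-- stationary path expectation -/
noncomputable def pe (T : ℕ) (G : (Fin T → E) → ℝ) : ℝ := ∑ z, Y.wt z * Y.pz T z G

end Sys

end Vale.Agent.P125.Pos
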