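import Vale.Agent.P125.Pos.Defs
import Vale.Agent.P125.Pos.Sys

/-!
Markov type controls antisymmetric edge sums: lift a labelled reversible system to a box of
edge counters, on which the edge sum is an honest increment of a function.
-/

namespace Vale.Agent.P125.Pos

open Finset

universe u

namespace BoxLift

variable {S E : Type} [Fintype S] [DecidableEq S] [Fintype E] [DecidableEq E] (Y : Sys S E)

lemma wt_nonneg (z : S) : 0 ≤ Y.wt z :=
  Finset.sum_nonneg fun e _ => by split_ifs; exacts [Y.μ_nonneg e, le_rfl]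

lemma le_wt (e : E) : Y.μ e ≤ Y.wt (Y.src e) := by
  refine le_trans (le_of_eq ?_) (Finset.single_le_sum (f := fun e' =>
    if Y.src e' = Y.src e then Y.μ e' else 0) (fun e' _ => ?_) (Finset.mem_univ e))
  · simp
  · split_ifs; exacts [Y.μ_nonneg e', le_rfl]

lemma sum_wt : ∑ z, Y.wt z = 1 := by
  unfold Sys.wt
  rw [Finset.sum_comm]
  simpa using Y.total

lemma tgt_inv (e : E) : Y.tgt (Y.inv e) = Y.src e := by
  rw [← Y.src_inv, Y.inv_inv]

variable {L : ℕ}

/-- The edge `e` can be taken at counters `s`. -/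
def Valid (e : E) (s : E → Fin L) : Prop :=
  Y.inv e = e ∨ ((s e : ℕ) + 1 < L ∧ 1 ≤ (s (Y.inv e) : ℕ))

instance (e : E) (s : E → Fin L) : Decidable (Valid Y e s) := by unfold Valid; infer_instance

/-- Counters after the edge `e`. -/
def move (e : E) (s : E → Fin L) : E → Fin L := fun x =>
  if Y.inv e = e then s x
  else if x = e then (if h : (s e : ℕ) + 1 < L then ⟨(s e : ℕ) + 1, h⟩ else s e)
  else if x = Y.inv e then ⟨(s (Y.inv e) : ℕ) - 1, lt_of_le_of_lt (Nat.sub_le _ _) (s _).isLt⟩
  else s x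

lemma move_fix {e : E} (he : Y.inv e = e) (s : E → Fin L) : move Y e s = s := by
  funext x; simp [move, he]

lemma move_self {e : E} (he : Y.inv e ≠ e) {s : E → Fin L} (h1 : (s e : ℕ) + 1 < L) :
    (move Y e s e : ℕ) = (s e : ℕ) + 1 := by
  simp [move, he, h1]

lemma move_at_inv {e : E} (he : Y.inv e ≠ e) (s : E → Fin L) :
    (move Y e s (Y.inv e) : ℕ) = (s (Y.inv e) : ℕ) - 1 := by
  simp [move, he]

lemma move_other {e x : E} (hx : x ≠ e) (hx' : x ≠ Y.inv e) (s : E → Fin L) :
    (move Y e s x : ℕ) = (s x : ℕ) := by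
  simp [move, hx, hx']

lemma valid_inv {e : E} {s : E → Fin L} (h : Valid Y e s) : Valid Y (Y.inv e) (move Y e s) := by
  unfold Valid
  rw [Y.inv_inv]
  rcases eq_or_ne (Y.inv e) e with he | he
  · exact Or.inl he.symm
  obtain ⟨h1, h2⟩ := h.resolve_left he
  refine Or.inr ?_
  rw [move_at_inv Y he, move_self Y he h1]
  have := (s (Y.inv e)).isLt
  omega

lemma move_move {e : E} {s : E → Fin L} (h : Valid Y e s) :
    move Y (Y.inv e) (move Y e s) = s := by
  rcases eq_or_ne (Y.inv e) e with he | he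
  · rw [he, move_fix Y he, move_fix Y he]
  obtain ⟨h1, h2⟩ := h.resolve_left he
  have he' : Y.inv (Y.inv e) ≠ Y.inv e := by rw [Y.inv_inv]; exact he.symm
  have hb := (s (Y.inv e)).isLt
  funext x
  refine Fin.ext ?_
  rcases eq_or_ne x (Y.inv e) with hx | hx
  · subst hx
    rw [move_self Y he' (by rw [move_at_inv Y he]; omega), move_at_inv Y he]
    omega
  rcases eq_or_ne x e with hx' | hx'
  · subst hx'
    have := move_at_inv Y he' (move Y x s)
    rw [Y.inv_inv] at this
    rw [this, move_self Y he h1]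
    omega
  · rw [move_other Y hx (by rwa [Y.inv_inv]), move_other Y hx' hx]

/-- The state reached along the label `e`. -/
def dest (e : E) (i : S × (E → Fin L)) : S × (E → Fin L) :=
  if Valid Y e i.2 then (Y.tgt e, move Y e i.2) else i

/-- Unnormalised flow between two box states. -/
def flow (i j : S × (E → Fin L)) (e : E) : ℝ :=
  if Y.src e = i.1 ∧ dest Y e i = j then Y.μ e else 0

lemma flow_inv {i j : S × (E → Fin L)} (hij : i ≠ j) (e : E) :
    flow Y j i (Y.inv e) = flow Y i j e := by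
  have key : ∀ (i j : S × (E → Fin L)) (e : E), i ≠ j → Y.src e = i.1 → dest Y e i = j →
      Y.src (Y.inv e) = j.1 ∧ dest Y (Y.inv e) j = i := by
    intro i j e hne hsrc hd
    by_cases hv : Valid Y e i.2
    · simp only [dest, if_pos hv] at hd
      subst hd
      refine ⟨Y.src_inv e, ?_⟩
      simp only [dest, if_pos (valid_inv Y hv), move_move Y hv, tgt_inv, hsrc]
    · simp only [dest, if_neg hv] at hd
      exact absurd hd hne
  unfold flow
  rw [Y.μ_inv]
  refine if_congr ⟨fun h => ?_, fun h => key i j e hij h.1 h.2⟩ rfl rfl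
  have := key j i (Y.inv e) hij.symm h.1 h.2
  rwa [Y.inv_inv] at this

lemma sum_flow_symm (i j : S × (E → Fin L)) :
    ∑ e, flow Y i j e = ∑ e, flow Y j i e := by
  rcases eq_or_ne i j with rfl | hij
  · rfl
  · exact Fintype.sum_equiv (Function.Involutive.toPerm Y.inv Y.inv_inv) _ _
      fun e => (flow_inv Y hij e).symm

/-- Transition matrix on box states. -/
noncomputable def mat : Matrix (S × (E → Fin L)) (S × (E → Fin L)) ℝ := fun i j =>
  (∑ e, flow Y i j e) / Y.wt i.1 + if Y.wt i.1 = 0 ∧ i = j then 1 else 0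

lemma mat_nonneg (i j : S × (E → Fin L)) : 0 ≤ mat Y i j := by
  refine add_nonneg (div_nonneg (Finset.sum_nonneg fun e _ => ?_) (wt_nonneg Y _)) ?_
  · unfold flow; split_ifs; exacts [Y.μ_nonneg e, le_rfl]
  · split_ifs <;> norm_num

lemma sum_flow_mul (i : S × (E → Fin L)) (Φ : S × (E → Fin L) → ℝ) :
    ∑ j, (∑ e, flow Y i j e) * Φ j = ∑ e, if Y.src e = i.1 then Y.μ e * Φ (dest Y e i) else 0 := by
  simp only [Finset.sum_mul]
  rw [Finset.sum_comm]
  refine Finset.sum_congr rfl fun e _ => ?_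
  by_cases he : Y.src e = i.1 <;> simp [flow, he]

lemma sum_mat (i : S × (E → Fin L)) : ∑ j, mat Y i j = 1 := by
  have h := sum_flow_mul Y i fun _ => 1
  simp only [mul_one] at h
  simp only [mat, Finset.sum_add_distrib, ← Finset.sum_div]
  rw [h, ← Sys.wt]
  rcases eq_or_ne (Y.wt i.1) 0 with h0 | h0
  · simp [h0]
  · simp [h0]

/-- The stationary law on box states. -/
noncomputable def law (i : S × (E → Fin L)) : ℝ := Y.wt i.1 / (Fintype.card (E → Fin L) : ℝ)

lemma law_mul_mat (i j : S × (E → Fin L)) :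
    law Y i * mat Y i j = (∑ e, flow Y i j e) / (Fintype.card (E → Fin L) : ℝ) := by
  rcases eq_or_ne (Y.wt i.1) 0 with h0 | h0
  · have hz : ∀ e, flow Y i j e = 0 := fun e => by
      unfold flow
      split_ifs with h
      · exact le_antisymm ((le_wt Y e).trans (by rw [h.1, h0])) (Y.μ_nonneg e)
      · rfl
    simp [law, h0, hz]
  · simp only [law, mat, h0, false_and, if_false, add_zero]
    field_simp

lemma sum_law (hL : 0 < L) : ∑ i : S × (E → Fin L), law Y i = 1 := by
  have : Nonempty (Fin L) := ⟨⟨0, hL⟩⟩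
  simp only [law, Fintype.sum_prod_type, Finset.sum_const, Finset.card_univ, nsmul_eq_mul]
  rw [← Finset.mul_sum, ← Finset.sum_div, sum_wt]
  exact mul_one_div_cancel (Nat.cast_ne_zero.2 Fintype.card_ne_zero)

variable {X : Type u} [NormedAddCommGroup X] [NormedSpace ℝ X] (a : E → X)

/-- The potential whose increments are the edge values. -/
noncomputable def pos (i : S × (E → Fin L)) : X := (1 / 2 : ℝ) • ∑ x, ((i.2 x : ℕ) : ℝ) • a x

lemma pos_dest (ha : ∀ e, a (Y.inv e) = -a e) {e : E} {i : S × (E → Fin L)}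
    (hv : Valid Y e i.2) : pos a (dest Y e i) - pos a i = a e := by
  simp only [dest, if_pos hv, pos, ← smul_sub, ← Finset.sum_sub_distrib, ← sub_smul]
  rcases eq_or_ne (Y.inv e) e with he | he
  · have h0 : a e = 0 := by
      have := ha e
      rw [he] at this
      have h2 : (2 : ℝ) • a e = 0 := by rw [two_smul]; nth_rw 1 [this]; exact neg_add_cancel _
      simpa using h2
    simp [move, he, h0]
  obtain ⟨h1, h2⟩ := hv.resolve_left he
  rw [Finset.sum_eq_add e (Y.inv e) he.symm]
  · simp only [move, if_neg he, if_pos trivial, dif_pos h1, ha]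
    rw [Nat.cast_add, Nat.cast_one, Nat.cast_sub h2, Nat.cast_one, add_sub_cancel_left, one_smul,
      sub_sub_cancel_left, neg_smul, one_smul, neg_neg, ← two_smul ℝ, smul_smul]
    norm_num
  · intro x _ hx
    simp [move, if_neg he, hx.1, hx.2]
  · simp
  · simp

lemma norm_pos_dest_le (ha : ∀ e, a (Y.inv e) = -a e) (e : E) (i : S × (E → Fin L)) :
    ‖pos a (dest Y e i) - pos a i‖ ≤ ‖a e‖ := by
  by_cases hv : Valid Y e i.2
  · rw [pos_dest Y a ha hv]
  · simp [dest, hv]

/-- Away from the walls the box chain follows the path law. -/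
lemma pz_eq_pow (ha : ∀ e, a (Y.inv e) = -a e) : ∀ (T : ℕ) (Ψ : X → ℝ) (i : S × (E → Fin L)),
    0 < Y.wt i.1 → (∀ e, T ≤ (i.2 e : ℕ) ∧ (i.2 e : ℕ) + T < L) →
    ∑ j, (mat Y ^ T) i j * Ψ (pos a j - pos a i) = Y.pz T i.1 fun q => Ψ (∑ k, a (q k))
  | 0, Ψ, i, _, _ => by simp [Sys.pz, Matrix.one_apply]
  | T + 1, Ψ, i, hwt, hs => by
    rw [pow_succ']
    simp only [Matrix.mul_apply, Finset.sum_mul, mul_assoc]
    rw [Finset.sum_comm]
    simp only [← Finset.mul_sum]
    have hstep : ∀ Φ : S × (E → Fin L) → ℝ, ∑ k, mat Y i k * Φ k =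
        ∑ e, if Y.src e = i.1 then Y.μ e / Y.wt i.1 * Φ (dest Y e i) else 0 := by
      intro Φ
      simp only [mat, hwt.ne', false_and, if_false, add_zero, div_mul_eq_mul_div,
        ← Finset.sum_div]
      rw [sum_flow_mul, Finset.sum_div]
      refine Finset.sum_congr rfl fun e _ => ?_
      split_ifs <;> simp [div_mul_eq_mul_div]
    rw [hstep, Sys.pz]
    refine Finset.sum_congr rfl fun e _ => ?_
    split_ifs with he
    swap
    · rfl
    rcases eq_or_lt_of_le (Y.μ_nonneg e) with hμ | hμ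
    · simp [← hμ]
    congr 1
    have hv : Valid Y e i.2 := Or.inr ⟨by linarith [(hs e).2], by linarith [(hs (Y.inv e)).1]⟩
    have hd : dest Y e i = (Y.tgt e, move Y e i.2) := by simp [dest, hv]
    have hwt' : 0 < Y.wt (dest Y e i).1 := by
      rw [hd, ← Y.src_inv]
      exact hμ.trans_le ((Y.μ_inv e).ge.trans (le_wt Y _))
    have hs' : ∀ x, T ≤ ((dest Y e i).2 x : ℕ) ∧ ((dest Y e i).2 x : ℕ) + T < L := by
      intro x
      have h1 := hs x
      have h2 := hs e
      have h3 := hs (Y.inv e)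
      rw [hd]
      simp only [move]
      split_ifs <;> (try simp only) <;> omega
    have ih := pz_eq_pow ha T (fun y => Ψ (a e + y)) (dest Y e i) hwt' hs'
    rw [show (dest Y e i).1 = Y.tgt e by rw [hd]] at ih
    convert ih using 1
    · refine Finset.sum_congr rfl fun j _ => ?_
      rw [← pos_dest Y a ha hv, sub_add_sub_cancel']
    · simp [Fin.sum_univ_succ]

lemma card_interior (T : ℕ) :
    ((Finset.univ.filter fun s : E → Fin L => ∀ e, T ≤ (s e : ℕ) ∧ (s e : ℕ) + T < L).card) =
      (L - 2 * T) ^ Fintype.card E := by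
  have h : (Finset.univ.filter fun s : E → Fin L => ∀ e, T ≤ (s e : ℕ) ∧ (s e : ℕ) + T < L) =
      Fintype.piFinset fun _ : E =>
        (Finset.univ.filter fun x : Fin L => T ≤ (x : ℕ) ∧ (x : ℕ) + T < L) := by
    ext s; simp [Fintype.mem_piFinset]
  rw [h, Fintype.card_piFinset, Finset.prod_const, Finset.card_univ]
  congr 1
  have h2 : (Finset.univ.filter fun x : Fin L => T ≤ (x : ℕ) ∧ (x : ℕ) + T < L).map Fin.valEmbedding =
      Finset.Ico T (L - T) := by
    ext y
    simp only [Finset.mem_map, Finset.mem_filter, Finset.mem_univ, true_and,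
      Fin.valEmbedding_apply, Finset.mem_Ico]
    exact ⟨fun ⟨x, hx, hxy⟩ => by omega,
      fun hy => ⟨⟨y, by omega⟩, (show T ≤ y ∧ y + T < L by omega), rfl⟩⟩
  rw [← Finset.card_map, h2, Nat.card_Ico]
  omega

end BoxLift

open BoxLift

variable {X : Type u} [NormedAddCommGroup X] [NormedSpace ℝ X]

/-- Markov type bounds sums of antisymmetric edge values along paths. -/
theorem edge_sums_of_markovType {p : ℝ} (hp : 1 < p) (h : MarkovType X p) :
    ∃ K : ℝ, 0 ≤ K ∧ ∀ (S E : Type) [Fintype S] [DecidableEq S] [Fintype E] [DecidableEq E]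
      (Y : Sys S E) (a : E → X), (∀ e, a (Y.inv e) = -a e) → ∀ T : ℕ, 1 ≤ T →
      Y.pe T (fun q => ‖∑ i, a (q i)‖ ^ p) ≤ K * (T : ℝ) * ∑ e, Y.μ e * ‖a e‖ ^ p := by
  obtain ⟨K, hK, hM⟩ := h
  refine ⟨2 * K ^ p, by positivity, fun S E _ _ _ _ Y a ha T hT => ?_⟩
  set n := Fintype.card E with hn
  set L := 4 * T * n + 2 * T + 1 with hL
  set N : ℝ := (Fintype.card (E → Fin L) : ℝ) with hN
  have : Nonempty (Fin L) := ⟨⟨0, by omega⟩⟩
  have hN0 : 0 < N := by rw [hN]; exact_mod_cast Fintype.card_pos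
  have hmain := hM (S × (E → Fin L)) (law Y) (mat Y) (pos a) T
    (fun i => div_nonneg (wt_nonneg Y _) (Nat.cast_nonneg _)) (sum_law Y (by omega))
    (mat_nonneg Y) (sum_mat Y)
    (fun i j => by rw [law_mul_mat, law_mul_mat, sum_flow_symm Y i j]) hT
  set Ψ : X → ℝ := fun y => ‖y‖ ^ p
  have hrhs : ∑ i : S × (E → Fin L), law Y i * ∑ j, mat Y i j * ‖pos a j - pos a i‖ ^ p ≤
      ∑ e, Y.μ e * ‖a e‖ ^ p := by
    calc _ = ∑ i : S × (E → Fin L), (∑ e, if Y.src e = i.1 then
          Y.μ e * ‖pos a (dest Y e i) - pos a i‖ ^ p else 0) / N := by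
          refine Finset.sum_congr rfl fun i _ => ?_
          rw [← sum_flow_mul Y i fun j => ‖pos a j - pos a i‖ ^ p, Finset.mul_sum, Finset.sum_div]
          refine Finset.sum_congr rfl fun j _ => ?_
          rw [← mul_assoc, law_mul_mat, div_mul_eq_mul_div]
      _ ≤ ∑ i : S × (E → Fin L),
          (∑ e, if Y.src e = i.1 then Y.μ e * ‖a e‖ ^ p else 0) / N := by
          gcongr with i _ e _
          split_ifs
          · exact mul_le_mul_of_nonneg_left (Real.rpow_le_rpow (norm_nonneg _)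
              (norm_pos_dest_le Y a ha e i) (by linarith)) (Y.μ_nonneg e)
          · exact le_rfl
      _ = ∑ e, Y.μ e * ‖a e‖ ^ p := by
          rw [Fintype.sum_prod_type]
          dsimp only
          have e1 : ∀ z : S, ∑ _s : E → Fin L,
              (∑ e, if Y.src e = z then Y.μ e * ‖a e‖ ^ p else 0) / N =
              ∑ e, if Y.src e = z then Y.μ e * ‖a e‖ ^ p else 0 := fun z => by
            rw [← Finset.sum_div, Finset.sum_const, Finset.card_univ, nsmul_eq_mul, ← hN,
              mul_div_cancel_left₀ _ hN0.ne']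
          rw [Finset.sum_congr rfl fun z _ => e1 z, Finset.sum_comm]
          simp
  have hlhs : Y.pe T (fun q => Ψ (∑ i, a (q i))) / 2 ≤
      ∑ i : S × (E → Fin L), law Y i * ∑ j, (mat Y ^ T) i j * ‖pos a j - pos a i‖ ^ p := by
    set I := Finset.univ.filter fun s : E → Fin L => ∀ e, T ≤ (s e : ℕ) ∧ (s e : ℕ) + T < L
    have hfrac : N ≤ 2 * (I.card : ℝ) := by
      rw [hN, card_interior, Fintype.card_fun, Fintype.card_fin, ← hn,
        Nat.cast_pow, Nat.cast_pow, Nat.cast_sub (by omega)]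
      push_cast
      have hLr : (4 * T * n + 2 * T + 1 : ℝ) = (L : ℝ) := by rw [hL]; push_cast; ring
      have hLp : (0 : ℝ) < L := by rw [← hLr]; positivity
      have hb : -2 ≤ -(2 * (T : ℝ) / L) := by
        rw [neg_le_neg_iff, div_le_iff₀ hLp]
        nlinarith [Nat.cast_nonneg (α := ℝ) (4 * T * n)]
      have hber := one_add_mul_le_pow hb n
      have h12 : (1 / 2 : ℝ) ≤ 1 + (n : ℝ) * -(2 * (T : ℝ) / L) := by
        have e : (n : ℝ) * -(2 * (T : ℝ) / L) = -(2 * T * n / L) := by ring
        have : 2 * (T : ℝ) * n / L ≤ 1 / 2 := by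
          rw [div_le_iff₀ hLp]; linarith [Nat.cast_nonneg (α := ℝ) T]
        linarith
      have h3 := mul_le_mul_of_nonneg_left (h12.trans hber) (pow_pos hLp n).le
      rw [← mul_pow] at h3
      have e : (L : ℝ) * (1 + -(2 * (T : ℝ) / L)) = L - 2 * T := by field_simp; ring
      rw [e] at h3
      linarith
    have hnn : ∀ i : S × (E → Fin L),
        0 ≤ law Y i * ∑ j, (mat Y ^ T) i j * ‖pos a j - pos a i‖ ^ p := by
      intro i
      refine mul_nonneg (div_nonneg (wt_nonneg Y _) (Nat.cast_nonneg _))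
        (Finset.sum_nonneg fun j _ => mul_nonneg ?_ (Real.rpow_nonneg (norm_nonneg _) _))
      have : ∀ (t : ℕ) i j, 0 ≤ (mat Y (L := L) ^ t) i j := by
        intro t
        induction t with
        | zero => intro i j; rw [pow_zero, Matrix.one_apply]; split_ifs <;> norm_num
        | succ t ih =>
          intro i j
          rw [pow_succ, Matrix.mul_apply]
          exact Finset.sum_nonneg fun k _ => mul_nonneg (ih i k) (mat_nonneg Y k j)
      exact this T i j
    calc Y.pe T (fun q => Ψ (∑ i, a (q i))) / 2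
        = ∑ z, Y.wt z * Y.pz T z (fun q => Ψ (∑ i, a (q i))) / 2 := by
          rw [Sys.pe, Finset.sum_div]
      _ ≤ ∑ z, ∑ s ∈ I, law Y (z, s) *
            ∑ j, (mat Y ^ T) (z, s) j * ‖pos a j - pos a (z, s)‖ ^ p := by
          refine Finset.sum_le_sum fun z _ => ?_
          rcases eq_or_lt_of_le (wt_nonneg Y z) with hz | hz
          · simp [← hz, law]
          have hval : ∀ s ∈ I, ∑ j, (mat Y ^ T) (z, s) j * ‖pos a j - pos a (z, s)‖ ^ p =
              Y.pz T z (fun q => Ψ (∑ i, a (q i))) := fun s hs =>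
            pz_eq_pow Y a ha T Ψ (z, s) hz (by simpa [I] using hs)
          rw [Finset.sum_congr rfl fun s hs => by rw [hval s hs]]
          simp only [law, Finset.sum_const, nsmul_eq_mul, ← hN]
          have hI0 : (0 : ℝ) < I.card := by linarith
          obtain ⟨s, hs⟩ := Finset.card_pos.1 (Nat.cast_pos.1 hI0)
          have hP : 0 ≤ Y.wt z * Y.pz T z (fun q => Ψ (∑ i, a (q i))) := by
            have := hnn (z, s)
            rw [hval s hs] at this
            have h2 := mul_nonneg this hN0.le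
            simp only [law, ← hN] at h2
            field_simp at h2
            linarith
          rw [show (I.card : ℝ) * (Y.wt z / N * Y.pz T z fun q => Ψ (∑ i, a (q i))) =
            (I.card : ℝ) * (Y.wt z * Y.pz T z fun q => Ψ (∑ i, a (q i))) / N by ring,
            le_div_iff₀ hN0]
          linarith [mul_le_mul_of_nonneg_right hfrac hP]
      _ ≤ ∑ z, ∑ s, law Y (z, s) *
            ∑ j, (mat Y ^ T) (z, s) j * ‖pos a j - pos a (z, s)‖ ^ p :=
          Finset.sum_le_sum fun z _ => Finset.sum_le_sum_of_subset_of_nonneg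
            (Finset.filter_subset _ _) fun s _ _ => hnn (z, s)
      _ = _ := by rw [Fintype.sum_prod_type]
  have h2 := mul_le_mul_of_nonneg_left hrhs
    (mul_nonneg (Real.rpow_nonneg hK p) (Nat.cast_nonneg (α := ℝ) T))
  simp only [Ψ] at hlhs
  linarith [hlhs.trans (hmain.trans h2)]

end Vale.Agent.P125.Pos
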