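import Vale.Agent.P125.Pos.Pattern

/-! The periodic nested configuration. -/

namespace Vale.Agent.P125.Pos

open Finset

universe u

variable {X : Type u} [NormedAddCommGroup X] [NormedSpace ℝ X]

/-- position of the `t`-th point of a state relative to its own slot `j` -/
def fpos (d j t : ℕ) : ℕ :=
  if (t + 2 * d - 2 * j) % (2 * d) = 0 then 2 * ((t + 2 * d - 2 * j) / (2 * d)) * (2 * d)
  else (2 * ((t + 2 * d - 2 * j) / (2 * d)) + 1) * (2 * d)
    + ((t + 2 * d - 2 * j) % (2 * d) - 1)

/-- where a state sits inside the joint configuration of an edge -/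
def selPos (d τ j : ℕ) (s : Bool) (i : ℕ) : ℕ :=
  (fpos d j (i / τ) + if s then 2 * d else 0) * τ + i % τ

/-- index of the slot endpoints with label `j` inside a state -/
def pidx (d τ j i : ℕ) : ℕ := (2 * d * (i / τ / 2) + 2 * j + i / τ % 2) * τ + i % τ

/-- the vector attached to the slots `j` of the state `z` -/
noncomputable def slotVec (y : ℕ → X) (d τ l j : ℕ) (z : ℕ → ℕ) : X :=
  pat y τ l (fun i => z (pidx d τ j i))

lemma block_lt {τ P P' i i' : ℕ} (hi : i < τ) (h : P < P') : P * τ + i < P' * τ + i' := by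
  have h1 : (P + 1) * τ ≤ P' * τ := Nat.mul_le_mul_right _ h
  rw [add_mul, one_mul] at h1; omega

lemma fpos_eq {d j t kk ρ : ℕ} (h : t + 2 * d - 2 * j = 2 * d * kk + ρ) (hρ : ρ < 2 * d) :
    fpos d j t = if ρ = 0 then 2 * kk * (2 * d) else (2 * kk + 1) * (2 * d) + (ρ - 1) := by
  have h1 : (t + 2 * d - 2 * j) % (2 * d) = ρ := by
    rw [h, Nat.mul_add_mod, Nat.mod_eq_of_lt hρ]
  have h2 : (t + 2 * d - 2 * j) / (2 * d) = kk := by
    rw [h, Nat.mul_add_div (by omega), Nat.div_eq_of_lt hρ, add_zero]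
  rw [fpos, h1, h2]

lemma fpos_slot {d j k side : ℕ} (hj : j < d) (hs : side < 2) :
    fpos d j (2 * d * k + 2 * j + side) = (2 * (k + 1) + side) * (2 * d) := by
  rw [fpos_eq (kk := k + 1) (ρ := side) (by
    have : 2 * d * (k + 1) = 2 * d * k + 2 * d := by ring
    omega) (by omega)]
  interval_cases side <;> simp

lemma fpos_strictMono {d j : ℕ} (hj : j < d) : StrictMono (fpos d j) := by
  intro t t' htt
  obtain ⟨r, hr⟩ : ∃ r, r = t + 2 * d - 2 * j := ⟨_, rfl⟩
  obtain ⟨r', hr'⟩ : ∃ r', r' = t' + 2 * d - 2 * j := ⟨_, rfl⟩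
  have hlt : r < r' := by omega
  have hD : 0 < 2 * d := by omega
  rw [fpos_eq (kk := r / (2 * d)) (ρ := r % (2 * d)) (by rw [← hr, Nat.div_add_mod])
    (Nat.mod_lt _ hD), fpos_eq (kk := r' / (2 * d)) (ρ := r' % (2 * d))
    (by rw [← hr', Nat.div_add_mod]) (Nat.mod_lt _ hD)]
  have h1 := Nat.div_add_mod r (2 * d)
  have h2 := Nat.div_add_mod r' (2 * d)
  have h3 := Nat.mod_lt r hD
  have h4 := Nat.mod_lt r' hD
  rcases eq_or_lt_of_le (Nat.div_le_div_right (c := 2 * d) hlt.le) with h | h
  · rw [h] at h1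
    rw [h]
    have hsplit : (2 * (r' / (2 * d)) + 1) * (2 * d) = 2 * (r' / (2 * d)) * (2 * d) + 2 * d := by
      ring
    split_ifs <;> omega
  · have h5 : (2 * (r / (2 * d)) + 2) * (2 * d) ≤ 2 * (r' / (2 * d)) * (2 * d) :=
      Nat.mul_le_mul_right _ (by omega)
    have e1 : (2 * (r / (2 * d)) + 2) * (2 * d) = 2 * (r / (2 * d)) * (2 * d) + 2 * d + 2 * d := by
      ring
    have e2 : (2 * (r / (2 * d)) + 1) * (2 * d) = 2 * (r / (2 * d)) * (2 * d) + 2 * d := by ring
    have e3 : (2 * (r' / (2 * d)) + 1) * (2 * d) = 2 * (r' / (2 * d)) * (2 * d) + 2 * d := by ring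
    split_ifs <;> omega

lemma fpos_lt {d j t l : ℕ} (hj : j < d) (ht : t < 2 * d * l) :
    fpos d j t < (2 * l + 4) * (2 * d) := by
  have hm := fpos_strictMono hj
  have h1 : t ≤ 2 * d * l + 2 * j := by omega
  have h2 := fpos_slot (d := d) (k := l) (side := 0) hj (by norm_num)
  rw [add_zero] at h2
  have h3 := hm.monotone h1
  rw [h2] at h3
  have : (2 * (l + 1) + 0) * (2 * d) < (2 * l + 4) * (2 * d) :=
    Nat.mul_lt_mul_of_pos_right (by omega) (by omega)
  omega

lemma selPos_strictMono {d τ j : ℕ} (s : Bool) (hj : j < d) (hτ : 0 < τ) :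
    StrictMono (selPos d τ j s) := by
  intro a b hab
  rcases eq_or_lt_of_le (Nat.div_le_div_right (c := τ) hab.le) with h | h
  · have h1 := Nat.div_add_mod a τ; have h2 := Nat.div_add_mod b τ
    simp only [selPos, h]; rw [h] at h1; omega
  · exact block_lt (Nat.mod_lt _ hτ) (by have := fpos_strictMono hj h; omega)

lemma selPos_lt {d τ j l i : ℕ} (s : Bool) (hj : j < d) (hτ : 0 < τ) (hi : i < 2 * d * l * τ) :
    selPos d τ j s i < (2 * l + 5) * (2 * d) * τ := by
  have h := fpos_lt (l := l) hj ((Nat.div_lt_iff_lt_mul hτ).mpr hi)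
  have h2 : fpos d j (i / τ) + (if s then 2 * d else 0) < (2 * l + 5) * (2 * d) := by
    rw [show (2 * l + 5) * (2 * d) = (2 * l + 4) * (2 * d) + 2 * d by ring]
    split_ifs <;> omega
  have := block_lt (τ := τ) (i := i % τ) (i' := 0) (Nat.mod_lt _ hτ) h2
  simpa [selPos] using this

lemma slot_pos_lt {d l j k side : ℕ} (hj : j < d) (hk : k < l) (hs : side < 2) :
    2 * d * k + 2 * j + side < 2 * d * l := by
  have h : 2 * d * (k + 1) ≤ 2 * d * l := Nat.mul_le_mul_left _ hk
  rw [mul_add, mul_one] at h; omega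

lemma pidx_start {d τ j k i : ℕ} (hi : i < τ) :
    pidx d τ j (2 * k * τ + i) = (2 * d * k + 2 * j) * τ + i := by
  simp [pidx, block_div _ hi, block_mod _ hi]

lemma pidx_end {d τ j k i : ℕ} (hi : i < τ) :
    pidx d τ j ((2 * k + 1) * τ + i) = (2 * d * k + 2 * j + 1) * τ + i := by
  simp only [pidx, block_div _ hi, block_mod _ hi, show (2 * k + 1) / 2 = k by omega,
    show (2 * k + 1) % 2 = 1 by omega]

lemma clus_slot (y : ℕ → X) (d τ j k : ℕ) (z : ℕ → ℕ) :
    clus y τ (fun i => z (pidx d τ j i)) k = (τ : ℝ)⁻¹ • ∑ i ∈ range τ,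
      (y (z ((2 * d * k + 2 * j) * τ + i)) - y (z ((2 * d * k + 2 * j + 1) * τ + i))) := by
  rw [clus]
  congr 1
  refine sum_congr rfl fun i hi => ?_
  rw [pidx_start (mem_range.mp hi), pidx_end (mem_range.mp hi)]

lemma slotVec_congr (y : ℕ → X) {d τ l j : ℕ} (hj : j < d) {z z' : ℕ → ℕ}
    (h : ∀ i < 2 * d * l * τ, z i = z' i) : slotVec y d τ l j z = slotVec y d τ l j z' := by
  simp only [slotVec, pat]
  refine sum_congr rfl fun k hk => ?_
  rw [clus_slot, clus_slot]
  congr 1
  refine sum_congr rfl fun i hi => ?_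
  have hk' := mem_range.mp hk
  have hi' := mem_range.mp hi
  have h0 := slot_pos_lt (side := 0) hj hk' (by norm_num)
  have h1 := slot_pos_lt (side := 1) hj hk' (by norm_num)
  rw [h _ (by simpa using block_lt (i' := 0) hi' h0),
    h _ (by simpa using block_lt (i' := 0) hi' h1)]

/-- the two ends of an edge carry opposite vectors up to a boundary term -/
lemma slotVec_add (y : ℕ → X) (hy : ∀ i, ‖y i‖ ≤ 1) {d τ l j : ℕ} (hj : j < d) (a : ℕ → ℕ) :
    ‖slotVec y d τ l j (fun i => a (selPos d τ j false i))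
      + slotVec y d τ l j (fun i => a (selPos d τ j true i))‖ ≤ 2 := by
  set Y : ℕ → X := fun P => (τ : ℝ)⁻¹ • ∑ i ∈ range τ, y (a (P * (2 * d) * τ + i)) with hY
  have key : ∀ (s : Bool) (k : ℕ), clus y τ (fun i => a (selPos d τ j s (pidx d τ j i))) k
      = if s then Y (2 * k + 3) - Y (2 * k + 4) else Y (2 * k + 2) - Y (2 * k + 3) := by
    intro s k
    rw [clus_slot y d τ j k (fun i => a (selPos d τ j s i))]
    have e : ∀ side < 2, ∀ i < τ, selPos d τ j s ((2 * d * k + 2 * j + side) * τ + i)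
        = (2 * k + 2 + side + if s then 1 else 0) * (2 * d) * τ + i := by
      intro side hs i hi
      rw [selPos, block_div _ hi, block_mod _ hi, fpos_slot hj hs]
      cases s
      · simp only [Bool.false_eq_true, ↓reduceIte, add_zero]; ring
      · simp only [↓reduceIte]; ring
    cases s <;>
      simp only [hY, ← smul_sub, ← sum_sub_distrib, Bool.false_eq_true, ↓reduceIte] <;>
      congr 1 <;>
      refine sum_congr rfl fun i hi => ?_
    · have h0 := e 0 (by norm_num) i (mem_range.mp hi)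
      have h1 := e 1 (by norm_num) i (mem_range.mp hi)
      simp only [add_zero, Bool.false_eq_true, ↓reduceIte] at h0 h1
      rw [h0, h1]
    · have h0 := e 0 (by norm_num) i (mem_range.mp hi)
      have h1 := e 1 (by norm_num) i (mem_range.mp hi)
      simp only [add_zero, ↓reduceIte] at h0 h1
      rw [h0, h1]
  have hsum : slotVec y d τ l j (fun i => a (selPos d τ j false i))
      + slotVec y d τ l j (fun i => a (selPos d τ j true i)) = Y 2 - Y (2 * l + 2) := by
    simp only [slotVec, pat, key, ← sum_add_distrib, Bool.false_eq_true, ↓reduceIte]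
    simp only [sub_add_sub_cancel]
    exact sum_range_sub' (fun k => Y (2 * k + 2)) l
  have hYn : ∀ P, ‖Y P‖ ≤ 1 := by
    intro P
    rcases Nat.eq_zero_or_pos τ with h | h
    · simp [hY, h]
    simp only [hY]
    rw [norm_smul, Real.norm_of_nonneg (by positivity), inv_mul_le_iff₀ (by exact_mod_cast h)]
    refine (norm_sum_le _ _).trans ((sum_le_sum fun i _ => hy _).trans ?_)
    simp
  rw [hsum]
  refine (norm_sub_le _ _).trans ?_
  linarith [hYn 2, hYn (2 * l + 2)]

/-- slots of a state met next lie inside the slots just used, shifted by at most one period -/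
lemma slot_nest {d j j' : ℕ} (hj : j < d) (hj' : j' < d) (hne : j ≠ j') (s : Bool) :
    ∃ c : ℤ, -1 ≤ c ∧ c ≤ 1 ∧ ∀ k k' : ℕ, (k' : ℤ) = k + c →
      fpos d j (2 * d * k' + 2 * j) + (if s then 2 * d else 0)
          < fpos d j (2 * d * k + 2 * j') + (if s then 0 else 2 * d) ∧
      fpos d j (2 * d * k + 2 * j' + 1) + (if s then 0 else 2 * d)
          < fpos d j (2 * d * k' + 2 * j + 1) + (if s then 2 * d else 0) := by
  have hst : ∀ k, fpos d j (2 * d * k + 2 * j) = (2 * (k + 1)) * (2 * d) := fun k => by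
    simpa using fpos_slot (k := k) (side := 0) hj (by norm_num)
  have hen : ∀ k, fpos d j (2 * d * k + 2 * j + 1) = (2 * (k + 1) + 1) * (2 * d) := fun k =>
    fpos_slot hj (by norm_num)
  rcases lt_or_gt_of_ne hne with h | h
  · have hoth : ∀ k side, side < 2 → fpos d j (2 * d * k + 2 * j' + side)
        = (2 * (k + 1) + 1) * (2 * d) + (2 * (j' - j) + side - 1) := by
      intro k side hs
      rw [fpos_eq (kk := k + 1) (ρ := 2 * (j' - j) + side) (by
        have : 2 * d * (k + 1) = 2 * d * k + 2 * d := by ring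
        omega) (by omega), if_neg (by omega)]
    refine ⟨if s then 0 else 1, by split_ifs <;> norm_num, by split_ifs <;> norm_num,
      fun k k' hk => ?_⟩
    have h0 := hoth k 0 (by norm_num); have h1 := hoth k 1 (by norm_num)
    rw [add_zero] at h0
    cases s
    · obtain rfl : k' = k + 1 := by simp at hk; omega
      rw [hst, hen, h0, h1]; simp only [Bool.false_eq_true, ↓reduceIte, add_zero]; ring_nf
      constructor <;> omega
    · obtain rfl : k' = k := by simpa using hk
      rw [hst, hen, h0, h1]; simp only [↓reduceIte, add_zero]; ring_nf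
      constructor <;> omega
  · have hoth : ∀ k side, side < 2 → fpos d j (2 * d * k + 2 * j' + side)
        = (2 * k + 1) * (2 * d) + (2 * d - 2 * (j - j') + side - 1) := by
      intro k side hs
      rw [fpos_eq (kk := k) (ρ := 2 * d - 2 * (j - j') + side) (by omega) (by omega),
        if_neg (by omega)]
    refine ⟨if s then -1 else 0, by split_ifs <;> norm_num, by split_ifs <;> norm_num,
      fun k k' hk => ?_⟩
    have h0 := hoth k 0 (by norm_num); have h1 := hoth k 1 (by norm_num)
    rw [add_zero] at h0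
    cases s
    · obtain rfl : k' = k := by simpa using hk
      rw [hst, hen, h0, h1]; simp only [Bool.false_eq_true, ↓reduceIte, add_zero]; ring_nf
      constructor <;> omega
    · obtain rfl : k = k' + 1 := by simp at hk; omega
      rw [hst, hen, h0, h1]; simp only [↓reduceIte, add_zero]; ring_nf
      constructor <;> omega

lemma slot_nest_sel {d τ j j' : ℕ} (hj : j < d) (hj' : j' < d) (hne : j ≠ j') (s : Bool)
    {a : ℕ → ℕ} (ha : StrictMono a) :
    ∃ c : ℤ, -1 ≤ c ∧ c ≤ 1 ∧ ∀ k k' : ℕ, (k' : ℤ) = k + c → ∀ i < τ, ∀ i' < τ,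
      a (selPos d τ j s ((2 * d * k' + 2 * j) * τ + i))
          < a (selPos d τ j (!s) ((2 * d * k + 2 * j') * τ + i')) ∧
      a (selPos d τ j (!s) ((2 * d * k + 2 * j' + 1) * τ + i'))
          < a (selPos d τ j s ((2 * d * k' + 2 * j + 1) * τ + i)) := by
  obtain ⟨c, hc1, hc2, hc⟩ := slot_nest hj hj' hne s
  refine ⟨c, hc1, hc2, fun k k' hk i hi i' hi' => ?_⟩
  obtain ⟨h1, h2⟩ := hc k k' hk
  refine ⟨ha ?_, ha ?_⟩ <;>
    simp only [selPos, block_div _ hi, block_mod _ hi, block_div _ hi', block_mod _ hi'] <;>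
    apply block_lt <;> first | assumption | (cases s <;> simpa using h1) | (cases s <;> simpa using h2)

end Vale.Agent.P125.Pos
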