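import Vale.Agent.P125.Pos.Defs

/-! Markov type forbids separated bounded families, through random walks on discrete cubes. -/

namespace Vale.Agent.P125.Pos

open Finset

universe u

namespace Cube

lemma exists_unrelated {ι : Type*} [DecidableEq ι] (R : ι → ι → Prop) [DecidableRel R] (q : ℕ) :
    ∀ (n : ℕ) (S : Finset ι), (∀ k ∈ S, (S.filter (R k)).card ≤ q) →
      (2 * q + 1) * n ≤ S.card →
      ∃ A ⊆ S, A.card = n ∧ ∀ k ∈ A, ∀ j ∈ A, k ≠ j → ¬ R k j
  | 0, S, _, _ => ⟨∅, empty_subset S, card_empty, by simp⟩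
  | n + 1, S, hq, hS => by
    have hne : S.Nonempty := card_pos.mp (by nlinarith)
    let nb : ι → Finset ι := fun k => S.filter (fun j => R k j ∨ R j k)
    have hsum : ∑ k ∈ S, (nb k).card ≤ ∑ _k ∈ S, 2 * q := by
      have h1 : ∑ k ∈ S, (nb k).card
          ≤ ∑ k ∈ S, (S.filter (R k)).card + ∑ k ∈ S, (S.filter (fun j => R j k)).card := by
        rw [← sum_add_distrib]
        refine sum_le_sum fun k _ => ?_
        simp only [nb, filter_or]
        exact card_union_le _ _
      have h2 : ∑ k ∈ S, (S.filter (fun j => R j k)).card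
          = ∑ k ∈ S, (S.filter (R k)).card := by
        simp only [card_filter]; exact sum_comm
      have h3 := sum_le_sum hq
      rw [sum_const, smul_eq_mul] at h3 ⊢
      linarith [show S.card * (2 * q) = S.card * q + S.card * q by ring]
    obtain ⟨k₀, hk₀, hdeg⟩ := exists_le_of_sum_le hne hsum
    set S' := S \ insert k₀ (nb k₀) with hS'
    have hcard : (2 * q + 1) * n ≤ S'.card := by
      have h1 := le_card_sdiff (insert k₀ (nb k₀)) S
      have h2 := card_insert_le k₀ (nb k₀)
      rw [← hS'] at h1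
      have h3 : (2 * q + 1) * (n + 1) = (2 * q + 1) * n + (2 * q + 1) := by ring
      omega
    obtain ⟨A, hA, hAn, hun⟩ := exists_unrelated R q n S'
      (fun k hk => (card_le_card (filter_subset_filter _ sdiff_subset)).trans
        (hq k (mem_sdiff.mp hk).1)) hcard
    have hk : k₀ ∉ A := fun h => (mem_sdiff.mp (hA h)).2 (mem_insert_self _ _)
    refine ⟨insert k₀ A, insert_subset hk₀ (hA.trans sdiff_subset),
      by rw [card_insert_of_notMem hk, hAn], ?_⟩
    have key : ∀ j ∈ A, ¬ R k₀ j ∧ ¬ R j k₀ := by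
      intro j hj
      have hj' := mem_sdiff.mp (hA hj)
      simp only [nb, mem_insert, mem_filter, not_or] at hj'
      have := hj'.2.2
      exact ⟨fun h => this ⟨hj'.1, Or.inl h⟩, fun h => this ⟨hj'.1, Or.inr h⟩⟩
    intro k hk' j hj hne
    rcases mem_insert.mp hk' with hk'' | hk'' <;> rcases mem_insert.mp hj with hj' | hj'
    · exact absurd (hk''.trans hj'.symm) hne
    · rw [hk'']; exact (key j hj').1
    · rw [hj']; exact (key k hk'').2
    · exact hun k hk'' j hj' hne

variable {T : ℕ}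

/-- Signs. -/
def sgn (b : Bool) : ℝ := if b then 1 else -1

/-- Hamming distance of two cube points. -/
noncomputable def dd (z y : Fin T → Bool) : ℝ := ∑ i, (1 - sgn (z i) * sgn (y i)) / 2

/-- Reverse one coordinate. -/
def tog (i : Fin T) (z : Fin T → Bool) : Fin T → Bool := Function.update z i (!z i)

/-- Walk that reverses a uniform coordinate. -/
noncomputable def walk (T : ℕ) : Matrix (Fin T → Bool) (Fin T → Bool) ℝ :=
  Matrix.of fun z y => ∑ i : Fin T, if tog i z = y then (1 : ℝ) / T else 0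

lemma dd_nonneg (z y : Fin T → Bool) : 0 ≤ dd z y :=
  sum_nonneg fun i _ => by cases z i <;> cases y i <;> norm_num [sgn]

lemma dd_self (z : Fin T → Bool) : dd z z = 0 :=
  sum_eq_zero fun i _ => by cases z i <;> norm_num [sgn]

lemma dd_comm (z y : Fin T → Bool) : dd z y = dd y z :=
  sum_congr rfl fun i _ => by rw [mul_comm]

lemma abs_dd_sub (z z' v : Fin T → Bool) : |dd z v - dd z' v| ≤ dd z z' := by
  rw [dd, dd, dd, ← sum_sub_distrib]
  refine (abs_sum_le_sum_abs _ _).trans (sum_le_sum fun i _ => ?_)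
  cases z i <;> cases z' i <;> cases v i <;> norm_num [sgn]

lemma dd_tog (i : Fin T) (z : Fin T → Bool) : dd z (tog i z) = 1 := by
  rw [dd, sum_eq_single i]
  · cases h : z i <;> norm_num [sgn, tog, h]
  · intro j _ hj
    rw [tog, Function.update_of_ne hj]
    cases z j <;> norm_num [sgn]
  · simp

lemma tog_tog (i : Fin T) (z : Fin T → Bool) : tog i (tog i z) = z := by simp [tog]

lemma walk_symm (z y : Fin T → Bool) : walk T z y = walk T y z := by
  simp only [walk, Matrix.of_apply]
  refine sum_congr rfl fun i _ => ?_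
  by_cases h : tog i z = y
  · rw [if_pos h, if_pos (by rw [← h, tog_tog])]
  · rw [if_neg h, if_neg (fun h' => h (by rw [← h', tog_tog]))]

lemma walk_sum (z : Fin T → Bool) (g : (Fin T → Bool) → ℝ) :
    ∑ y, walk T z y * g y = ∑ i : Fin T, (1 : ℝ) / T * g (tog i z) := by
  simp only [walk, Matrix.of_apply, sum_mul]
  rw [sum_comm]
  refine sum_congr rfl fun i _ => ?_
  simp [ite_mul]

lemma walk_row (hT : 0 < T) (z : Fin T → Bool) : ∑ y, walk T z y = 1 := by
  have := walk_sum z (fun _ => 1)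
  simp only [mul_one] at this
  rw [this, sum_const, card_univ, Fintype.card_fin, nsmul_eq_mul]
  field_simp

lemma walk_sign (hT : 0 < T) (i : Fin T) (t : ℕ) :
    ∀ z : Fin T → Bool,
      ∑ y, (walk T ^ t) z y * sgn (y i) = (1 - 2 / T) ^ t * sgn (z i) := by
  induction t with
  | zero => intro z; simp [Matrix.one_apply, ite_mul]
  | succ t ih =>
    intro z
    simp only [pow_succ', Matrix.mul_apply, sum_mul]
    rw [sum_comm]
    have : ∀ x : Fin T → Bool, ∑ y, walk T z x * (walk T ^ t) x y * sgn (y i)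
        = walk T z x * ((1 - 2 / T) ^ t * sgn (x i)) := fun x => by
      rw [← ih x, mul_sum]; simp only [mul_assoc]
    rw [sum_congr rfl fun x _ => this x, walk_sum]
    have e : ∑ j : Fin T, sgn (tog j z i) = ((T : ℝ) - 2) * sgn (z i) := by
      rw [← Finset.add_sum_erase _ _ (mem_univ i),
        sum_congr rfl (g := fun _ => sgn (z i)) fun j hj => by
          rw [tog, Function.update_of_ne (ne_of_mem_erase hj).symm]]
      rw [sum_const, card_erase_of_mem (mem_univ i), card_univ, Fintype.card_fin, nsmul_eq_mul,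
        Nat.cast_sub hT, Nat.cast_one]
      cases h : z i <;> simp [sgn, tog, h] <;> ring
    simp only [← mul_sum, e]
    have : (T : ℝ) ≠ 0 := by exact_mod_cast hT.ne'
    field_simp

lemma mean_dd (hT : 2 ≤ T) (z : Fin T → Bool) :
    (T : ℝ) / 4 ≤ ∑ y, (walk T ^ T) z y * dd z y := by
  have hrow : ∀ t z', ∑ y, (walk T ^ t) z' y = 1 := by
    intro t
    induction t with
    | zero => intro z'; simp [Matrix.one_apply]
    | succ t ih =>
      intro z'
      simp only [pow_succ', Matrix.mul_apply]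
      rw [sum_comm]
      simp only [← mul_sum, ih, mul_one]
      exact walk_row (by omega) z'
  have hterm : ∀ i : Fin T, ∑ y, (walk T ^ T) z y * ((1 - sgn (z i) * sgn (y i)) / 2)
      = (1 - (1 - 2 / (T:ℝ)) ^ T) / 2 := by
    intro i
    have h := walk_sign (by omega) i T z
    have e : ∀ y, (walk T ^ T) z y * ((1 - sgn (z i) * sgn (y i)) / 2)
        = 1/2 * (walk T ^ T) z y - sgn (z i) / 2 * ((walk T ^ T) z y * sgn (y i)) :=
      fun y => by ring
    rw [sum_congr rfl fun y _ => e y, sum_sub_distrib, ← mul_sum, ← mul_sum, hrow, h]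
    cases z i <;> simp [sgn] <;> ring
  simp only [dd, mul_sum]
  rw [sum_comm, sum_congr rfl fun i _ => hterm i, sum_const, card_univ, Fintype.card_fin,
    nsmul_eq_mul]
  have h2 : (2 : ℝ) ≤ T := by exact_mod_cast hT
  have hb : (1 - 2 / (T:ℝ)) ^ T ≤ 1 / 2 := by
    have h0 : 0 ≤ 1 - 2 / (T:ℝ) := by
      rw [sub_nonneg, div_le_one (by linarith)]; exact h2
    calc (1 - 2 / (T:ℝ)) ^ T ≤ Real.exp (-(2 / (T:ℝ))) ^ T :=
          pow_le_pow_left₀ h0 (by linarith [Real.add_one_le_exp (-(2 / (T:ℝ)))]) T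
      _ = Real.exp (-2) := by rw [← Real.exp_nat_mul]; congr 1; field_simp
      _ ≤ 1 / 2 := by
          rw [Real.exp_neg, one_div]
          exact inv_anti₀ two_pos (by linarith [Real.add_one_le_exp (2:ℝ)])
  nlinarith

end Cube

open Cube in
theorem no_bounded_family_of_markovType {X : Type u} [NormedAddCommGroup X] [NormedSpace ℝ X]
    {p : ℝ} (hp : 1 < p) (h : MarkovType X p) (C θ : ℝ) (hθ : 0 < θ) :
    ∃ K : ℕ, ¬ ∃ w : Fin K → X,
      (∀ k, θ ≤ ‖w k‖) ∧ ∀ A : Finset (Fin K), ‖∑ k ∈ A, w k‖ ≤ C := by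
  classical
  obtain ⟨K₀, hK₀, hM⟩ := h
  set D : ℝ := 2 * max C 1 with hD
  have hDpos : 0 < D := by have := le_max_right C 1; linarith
  -- the time
  obtain ⟨T, hT2, hTbig⟩ : ∃ T : ℕ, 2 ≤ T ∧ (8 * D * K₀ / θ) ^ p < (T : ℝ) ^ (p - 1) := by
    have := ((tendsto_rpow_atTop (by linarith : 0 < p - 1)).comp
      tendsto_natCast_atTop_atTop).eventually (Filter.eventually_gt_atTop ((8 * D * K₀ / θ) ^ p))
    obtain ⟨a, ha⟩ := Filter.eventually_atTop.mp this
    exact ⟨max a 2, le_max_right _ _, ha _ (le_max_left _ _)⟩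
  have hT0 : (0 : ℝ) < T := by exact_mod_cast (show 0 < T by omega)
  obtain ⟨n, hn⟩ : ∃ n, n = Fintype.card (Fin T → Bool) := ⟨_, rfl⟩
  have hn0 : (0 : ℝ) < n := by rw [hn]; exact_mod_cast Fintype.card_pos
  set δ : ℝ := θ / (2 * n) with hδ
  have hδ0 : 0 < δ := by positivity
  refine ⟨(2 * ⌈D / δ⌉₊ + 1) * n, ?_⟩
  rintro ⟨w, hw, hC⟩
  have habs : ∀ φ : X →L[ℝ] ℝ, ‖φ‖ ≤ 1 → ∑ k, |φ (w k)| ≤ D := by
    intro φ hφ
    have hA : ∀ A, |φ (∑ k ∈ A, w k)| ≤ max C 1 := fun A => by
      rw [← Real.norm_eq_abs]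
      exact ((φ.le_opNorm _).trans (mul_le_of_le_one_left (norm_nonneg _) hφ)).trans
        ((hC A).trans (le_max_left _ _))
    rw [← sum_filter_add_sum_filter_not univ (fun k => 0 ≤ φ (w k))]
    have h1 : ∑ k ∈ univ.filter (fun k => 0 ≤ φ (w k)), |φ (w k)|
        = φ (∑ k ∈ univ.filter (fun k => 0 ≤ φ (w k)), w k) := by
      rw [map_sum]
      exact sum_congr rfl fun k hk => abs_of_nonneg (mem_filter.mp hk).2
    have h2 : ∑ k ∈ univ.filter (fun k => ¬ 0 ≤ φ (w k)), |φ (w k)|
        = -φ (∑ k ∈ univ.filter (fun k => ¬ 0 ≤ φ (w k)), w k) := by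
      rw [map_sum, ← sum_neg_distrib]
      exact sum_congr rfl fun k hk => abs_of_neg (not_le.mp (mem_filter.mp hk).2)
    rw [h1, h2]
    linarith [(abs_le.mp (hA (univ.filter fun k => 0 ≤ φ (w k)))).2,
      (abs_le.mp (hA (univ.filter fun k => ¬ 0 ≤ φ (w k)))).1]
  choose φ hφ hφw using fun k => exists_dual_vector'' ℝ (w k)
  let R : Fin ((2 * ⌈D / δ⌉₊ + 1) * n) → Fin ((2 * ⌈D / δ⌉₊ + 1) * n) → Prop :=
    fun k j => δ < |φ k (w j)|
  obtain ⟨A, -, hAn, hun⟩ := exists_unrelated R ⌈D / δ⌉₊ n univ (fun k _ => by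
      have h1 : ((univ.filter (R k)).card : ℝ) * δ ≤ D := by
        refine le_trans ?_ (habs (φ k) (hφ k))
        calc ((univ.filter (R k)).card : ℝ) * δ = ∑ _j ∈ univ.filter (R k), δ := by simp
          _ ≤ ∑ j ∈ univ.filter (R k), |φ k (w j)| :=
              sum_le_sum fun j hj => (mem_filter.mp hj).2.le
          _ ≤ _ := sum_le_sum_of_subset_of_nonneg (filter_subset _ _) fun j _ _ => abs_nonneg _
      have h2 : ((univ.filter (R k)).card : ℝ) ≤ ⌈D / δ⌉₊ :=
        ((le_div_iff₀ hδ0).mpr h1).trans (Nat.le_ceil _)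
      exact_mod_cast h2) (by simp)
  let ι : (Fin T → Bool) → Fin ((2 * ⌈D / δ⌉₊ + 1) * n) :=
    fun v => A.orderEmbOfFin hAn (Fin.cast hn.symm (Fintype.equivFin _ v))
  have hι : Function.Injective ι := fun a b hab => by
    simpa [ι] using hab
  have hιA : ∀ v, ι v ∈ A := fun v => A.orderEmbOfFin_mem hAn _
  let f : (Fin T → Bool) → X := fun z => ∑ v, dd z v • w (ι v)
  have hdiff : ∀ z z', f z' - f z = ∑ v, (dd z' v - dd z v) • w (ι v) := fun z z' => by
    simp only [f, sub_smul, sum_sub_distrib]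
  have hup : ∀ z z', ‖f z' - f z‖ ≤ D * dd z z' := by
    intro z z'
    obtain ⟨ψ, hψ, hψv⟩ := exists_dual_vector'' ℝ (f z' - f z)
    calc ‖f z' - f z‖ = ψ (f z' - f z) := by rw [hψv]; rfl
      _ ≤ ∑ v, dd z z' * |ψ (w (ι v))| := by
          rw [hdiff, map_sum]
          refine sum_le_sum fun v _ => ?_
          rw [map_smul, smul_eq_mul]
          refine (le_abs_self _).trans ?_
          rw [abs_mul, abs_sub_comm]
          exact mul_le_mul_of_nonneg_right (abs_dd_sub z z' v) (abs_nonneg _)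
      _ ≤ D * dd z z' := by
          rw [← mul_sum, mul_comm]
          refine mul_le_mul_of_nonneg_right (le_trans ?_ (habs ψ hψ)) (dd_nonneg z z')
          rw [← sum_image (f := fun k => |ψ (w k)|) (g := ι) (fun a _ b _ hab => hι hab)]
          exact sum_le_sum_of_subset_of_nonneg (subset_univ _) fun _ _ _ => abs_nonneg _
  have hlow : ∀ z z', θ / 2 * dd z z' ≤ ‖f z' - f z‖ := by
    intro z z'
    have h1 : φ (ι z) (f z' - f z) ≤ ‖f z' - f z‖ :=
      (le_abs_self _).trans (((Real.norm_eq_abs _).symm.le.trans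
        ((φ (ι z)).le_opNorm _)).trans (mul_le_of_le_one_left (norm_nonneg _) (hφ _)))
    refine le_trans ?_ h1
    rw [hdiff, map_sum, ← Finset.add_sum_erase _ _ (mem_univ z)]
    simp only [map_smul, smul_eq_mul]
    have h2 : |∑ v ∈ univ.erase z, (dd z' v - dd z v) * φ (ι z) (w (ι v))|
        ≤ dd z z' * (θ / 2) := by
      refine (abs_sum_le_sum_abs _ _).trans ?_
      refine (sum_le_sum (g := fun _ => dd z z' * δ) fun v hv => ?_).trans ?_
      · rw [abs_mul, abs_sub_comm]
        exact mul_le_mul (abs_dd_sub z z' v)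
          (not_lt.mp (hun _ (hιA z) _ (hιA v) (fun e => ne_of_mem_erase hv (hι e).symm)))
          (abs_nonneg _) (dd_nonneg z z')
      · rw [sum_const, nsmul_eq_mul]
        calc ((univ.erase z).card : ℝ) * (dd z z' * δ) ≤ (n:ℝ) * (dd z z' * δ) := by
              refine mul_le_mul_of_nonneg_right ?_ (mul_nonneg (dd_nonneg z z') hδ0.le)
              rw [hn]; exact_mod_cast card_le_univ _
          _ = dd z z' * (θ / 2) := by rw [hδ]; field_simp
    have h3 : θ * dd z z' ≤ (dd z' z - dd z z) * φ (ι z) (w (ι z)) := by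
      rw [dd_self, sub_zero, dd_comm z' z, hφw, mul_comm θ]
      exact mul_le_mul_of_nonneg_left (hw _) (dd_nonneg z z')
    linarith [(abs_le.mp h2).1]
  have hrow : ∀ z : Fin T → Bool, ∑ y, walk T z y = 1 := walk_row (by omega)
  have hPnn : ∀ z y : Fin T → Bool, 0 ≤ walk T z y := fun z y => by
    simp only [walk, Matrix.of_apply]
    exact sum_nonneg fun i _ => by split_ifs <;> positivity
  have hmain := hM (Fin T → Bool) (fun _ => 1 / (n:ℝ)) (walk T) f T (fun _ => by positivity)
    (by rw [sum_const, card_univ, ← hn, nsmul_eq_mul]; field_simp) hPnn hrow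
    (fun i j => by rw [walk_symm i j]) (by omega)
  have hp0 : (0 : ℝ) < p := by linarith
  -- one step
  have hone : ∀ z, ∑ y, walk T z y * ‖f y - f z‖ ^ p ≤ D ^ p := by
    intro z
    rw [walk_sum z]
    refine (sum_le_sum (g := fun _ => (1:ℝ) / T * D ^ p) fun i _ => ?_).trans (le_of_eq ?_)
    · refine mul_le_mul_of_nonneg_left (Real.rpow_le_rpow (norm_nonneg _) ?_ hp0.le) (by positivity)
      have := hup z (tog i z)
      rwa [dd_tog, mul_one] at this
    · simp; field_simp
  have hpowt : ∀ (t : ℕ) (z y : Fin T → Bool), 0 ≤ (walk T ^ t) z y := by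
    intro t
    induction t with
    | zero => intro z y; rw [pow_zero, Matrix.one_apply]; split_ifs <;> norm_num
    | succ t ih =>
      intro z y
      rw [pow_succ', Matrix.mul_apply]
      exact sum_nonneg fun x _ => mul_nonneg (hPnn _ _) (ih _ _)
  have hpow := hpowt T
  -- many steps
  have hmany : ∀ z, (θ * T / 8) ^ p ≤ ∑ y, (walk T ^ T) z y * ‖f y - f z‖ ^ p := by
    intro z
    have hs : ∑ y, (walk T ^ T) z y = 1 := by
      have : ∀ t, ∀ z, ∑ y, (walk T ^ t) z y = 1 := by
        intro t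
        induction t with
        | zero => intro z; simp [Matrix.one_apply]
        | succ t ih =>
          intro z
          simp only [pow_succ', Matrix.mul_apply]
          rw [sum_comm]
          simp only [← mul_sum, ih, mul_one]
          exact hrow z
      exact this T z
    have hj := Real.rpow_arith_mean_le_arith_mean_rpow univ (fun y => (walk T ^ T) z y)
      (fun y => θ / 2 * dd z y) (fun y _ => hpow z y) hs
      (fun y _ => mul_nonneg (by positivity) (dd_nonneg z y)) hp.le
    refine le_trans ?_ (hj.trans (sum_le_sum fun y _ => mul_le_mul_of_nonneg_left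
      (Real.rpow_le_rpow (mul_nonneg (by positivity) (dd_nonneg z y)) (hlow z y) hp0.le) (hpow z y)))
    refine Real.rpow_le_rpow (by positivity) ?_ hp0.le
    have := mul_le_mul_of_nonneg_left (mean_dd hT2 z) (by positivity : (0:ℝ) ≤ θ / 2)
    rw [mul_sum] at this
    refine le_trans (le_of_eq (by ring)) (this.trans (le_of_eq ?_))
    exact sum_congr rfl fun y _ => by ring
  have hfinal : (θ * T / 8) ^ p ≤ K₀ ^ p * T * D ^ p := by
    have h1 : ∑ _z : Fin T → Bool, 1 / (n:ℝ) = 1 := by
      rw [sum_const, card_univ, ← hn, nsmul_eq_mul]; field_simp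
    calc (θ * T / 8) ^ p = ∑ _z : Fin T → Bool, 1 / (n:ℝ) * (θ * T / 8) ^ p := by
          rw [← sum_mul, h1, one_mul]
      _ ≤ _ := sum_le_sum fun z _ => mul_le_mul_of_nonneg_left (hmany z) (by positivity)
      _ ≤ _ := hmain
      _ ≤ K₀ ^ p * T * ∑ _z : Fin T → Bool, 1 / (n:ℝ) * D ^ p := by
          gcongr with z _; exact hone z
      _ = _ := by rw [← sum_mul, h1, one_mul]
  rw [Real.div_rpow (by positivity) hθ.le, Real.mul_rpow (by positivity) hK₀,
    Real.mul_rpow (by norm_num) hDpos.le, div_lt_iff₀ (Real.rpow_pos_of_pos hθ p)] at hTbig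
  rw [Real.div_rpow (by positivity) (by norm_num), Real.mul_rpow hθ.le hT0.le,
    div_le_iff₀ (by positivity)] at hfinal
  have hsplit : (T:ℝ) ^ p = T ^ (p - 1) * T := by
    rw [← Real.rpow_add_one hT0.ne']; ring_nf
  rw [hsplit] at hfinal
  nlinarith

end Vale.Agent.P125.Pos
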