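import Mathlib

/-! Markov type and uniformly smooth renormings. -/

namespace Vale.Agent.P125.Pos

universe u

/-- `X` has Markov type `p`: finite stationary reversible chains, every map into `X`, every time. -/
def MarkovType (X : Type u) [NormedAddCommGroup X] (p : ℝ) : Prop :=
  ∃ K : ℝ, 0 ≤ K ∧
    ∀ (S : Type) [Fintype S] [DecidableEq S] (w : S → ℝ) (P : Matrix S S ℝ) (f : S → X) (t : ℕ),
      (∀ i, 0 ≤ w i) → ∑ i, w i = 1 → (∀ i j, 0 ≤ P i j) → (∀ i, ∑ j, P i j = 1) →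
      (∀ i j, w i * P i j = w j * P j i) → 1 ≤ t →
      ∑ i, w i * ∑ j, (P ^ t) i j * ‖f j - f i‖ ^ p
        ≤ K ^ p * (t : ℝ) * ∑ i, w i * ∑ j, P i j * ‖f j - f i‖ ^ p

/-- Some equivalent norm of `X` is uniformly smooth. -/
def UniformlySmoothRenorm (X : Type u) [NormedAddCommGroup X] [NormedSpace ℝ X] : Prop :=
  ∃ (N : Seminorm ℝ X) (a b : ℝ), 0 < a ∧ 0 < b ∧ (∀ x, a * ‖x‖ ≤ N x ∧ N x ≤ b * ‖x‖) ∧
    ∀ ε : ℝ, 0 < ε → ∃ τ₀ : ℝ, 0 < τ₀ ∧ ∀ τ : ℝ, 0 < τ → τ ≤ τ₀ → ∀ x y : X, N x = 1 → N y = 1 →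
      (N (x + τ • y) + N (x - τ • y)) / 2 - 1 ≤ ε * τ

end Vale.Agent.P125.Pos
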