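import Vale.Agent.P125.Pos.Pot

/-! Generic increasing tuples: indiscernible staircases and almost consistent random embeddings. -/

namespace Vale.Agent.P125.Pos

open Finset Filter Topology

universe u

namespace Gen

/-- A free ultrafilter on `ℕ`. -/
noncomputable def U0 : Ultrafilter ℕ := hyperfilter ℕ

/-- The generic tuple: the head is generic, the tail is generic above it. -/
noncomputable def gen : (n : ℕ) → Ultrafilter (Fin n → ℕ)
  | 0 => pure Fin.elim0
  | n + 1 => Ultrafilter.bind U0 fun a => (gen n).map (Fin.cons a)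

lemma gen_zero (P : (Fin 0 → ℕ) → Prop) : (∀ᶠ z in (gen 0).toFilter, P z) ↔ P Fin.elim0 :=
  Iff.rfl

lemma gen_succ (n : ℕ) (P : (Fin (n + 1) → ℕ) → Prop) :
    (∀ᶠ z in (gen (n + 1)).toFilter, P z) ↔
      ∀ᶠ a in (U0 : Filter ℕ), ∀ᶠ z in (gen n).toFilter, P (Fin.cons a z) :=
  Iff.rfl

lemma eventually_gt_U0 (b : ℕ) : ∀ᶠ a in (U0 : Filter ℕ), b < a :=
  Nat.hyperfilter_le_atTop (eventually_gt_atTop b)

lemma eventually_gt : ∀ (n b : ℕ), ∀ᶠ z in (gen n).toFilter, ∀ i, b < z i
  | 0, _ => (gen_zero _).2 fun i => i.elim0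
  | n + 1, b => by
    rw [gen_succ]
    filter_upwards [eventually_gt_U0 b] with a ha
    filter_upwards [eventually_gt n b] with z hz
    exact Fin.cases (by simpa using ha) (fun i => by simpa using hz i)

lemma eventually_strictMono : ∀ n : ℕ, ∀ᶠ z in (gen n).toFilter, StrictMono z
  | 0 => (gen_zero _).2 fun i => i.elim0
  | n + 1 => by
    rw [gen_succ]
    refine Eventually.of_forall fun a => ?_
    filter_upwards [eventually_strictMono n, eventually_gt n a] with z hz hgt
    intro i j hij
    induction j using Fin.cases with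
    | zero => exact absurd hij (Fin.not_lt_zero i)
    | succ j =>
      induction i using Fin.cases with
      | zero => simpa using hgt j
      | succ i => simpa using hz (Fin.succ_lt_succ_iff.1 hij)

/-- Restricting a generic tuple along an increasing selector gives a generic tuple. -/
lemma eventually_comp : ∀ (m n : ℕ) (sel : Fin n → Fin m), StrictMono sel →
    ∀ P : (Fin n → ℕ) → Prop, (∀ᶠ z in (gen n).toFilter, P z) →
      ∀ᶠ z in (gen m).toFilter, P (z ∘ sel)
  | m, 0, sel, _, P, hP => by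
    refine Eventually.of_forall fun z => ?_
    rw [Subsingleton.elim (z ∘ sel) Fin.elim0]
    exact (gen_zero P).1 hP
  | 0, n + 1, sel, _, _, _ => (sel 0).elim0
  | m + 1, n + 1, sel, hsel, P, hP => by
    rw [gen_succ]
    have hpos : ∀ i : Fin n, sel i.succ ≠ 0 := fun i h => by
      have := hsel (Fin.succ_pos i)
      rw [h] at this
      exact absurd this (Fin.not_lt_zero _)
    by_cases h0 : sel 0 = 0
    · rw [gen_succ] at hP
      filter_upwards [hP] with a ha
      have hsel' : StrictMono fun i : Fin n => (sel i.succ).pred (hpos i) := fun i j hij =>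
        Fin.pred_lt_pred_iff.2 (hsel (Fin.succ_lt_succ_iff.2 hij))
      filter_upwards [eventually_comp m n _ hsel' _ ha] with z hz
      convert hz using 1
      funext i
      induction i using Fin.cases with
      | zero => simp [h0]
      | succ i =>
        simp only [Function.comp_apply, Fin.cons_succ]
        conv_lhs => rw [← Fin.succ_pred (sel i.succ) (hpos i), Fin.cons_succ]
    · have hne : ∀ i, sel i ≠ 0 := fun i => Fin.cases h0 hpos i
      have hsel' : StrictMono fun i => (sel i).pred (hne i) := fun i j hij =>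
        Fin.pred_lt_pred_iff.2 (hsel hij)
      refine Eventually.of_forall fun a => ?_
      filter_upwards [eventually_comp m (n + 1) _ hsel' P hP] with z hz
      convert hz using 1
      funext i
      simp only [Function.comp_apply]
      conv_lhs => rw [← Fin.succ_pred (sel i) (hne i), Fin.cons_succ]

lemma tendsto_comp {n m : ℕ} (sel : Fin n → Fin m) (hsel : StrictMono sel) :
    Tendsto (fun z => z ∘ sel) (gen m).toFilter (gen n).toFilter :=
  tendsto_def.2 fun _ hs => eventually_comp m n sel hsel _ hs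

/-- Bounded real functions converge along every ultrafilter. -/
lemma exists_tendsto {α : Type*} (V : Ultrafilter α) (f : α → ℝ) (B : ℝ) (h : ∀ a, |f a| ≤ B) :
    ∃ L, |L| ≤ B ∧ Tendsto f (V : Filter α) (𝓝 L) := by
  obtain ⟨L, hL, hle⟩ := (isCompact_Icc (a := -B) (b := B)).ultrafilter_le_nhds (V.map f)
    (by
      rw [Filter.le_principal_iff, Ultrafilter.mem_coe, Ultrafilter.mem_map]
      exact mem_of_superset univ_mem fun a _ => abs_le.1 (h a))
  exact ⟨L, abs_le.2 hL, hle⟩

end Gen

open Gen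

variable {X : Type u} [NormedAddCommGroup X] [NormedSpace ℝ X]

/-- Staircases on which finitely many linear patterns have almost constant norm. -/
theorem exists_indiscernible (θ : ℝ) (h : HasStairs X θ) (J : Type) [Fintype J] (len : J → ℕ)
    (c : ∀ j, Fin (len j) → ℝ) (M : ℕ) (ε : ℝ) (hε : 0 < ε) :
    ∃ (y : Fin M → X) (φ : Fin M → (X →L[ℝ] ℝ)),
      (∀ i, ‖y i‖ ≤ 1) ∧ (∀ i, ‖φ i‖ ≤ 1) ∧
      (∀ j k, j ≤ k → θ ≤ φ k (y j)) ∧ (∀ j k, k < j → |φ k (y j)| ≤ θ / 4) ∧
      ∀ (j : J) (σ σ' : Fin (len j) → Fin M), StrictMono σ → StrictMono σ' →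
        |‖∑ i, c j i • y (σ i)‖ - ‖∑ i, c j i • y (σ' i)‖| ≤ ε := by
  choose x φ hx hφ hge hle using h
  let xb : ℕ → ℕ → X := fun N k => if hk : k < N then x N ⟨k, hk⟩ else 0
  have hxb : ∀ N k, ‖xb N k‖ ≤ 1 := fun N k => by
    simp only [xb]
    split_ifs with hk
    · exact hx N _
    · simp
  let f : ∀ j, (Fin (len j) → ℕ) → ℕ → ℝ := fun j z N => ‖∑ i, c j i • xb N (z i)‖
  have hf : ∀ j z N, |f j z N| ≤ ∑ i, |c j i| := fun j z N => by
    rw [abs_of_nonneg (norm_nonneg _)]
    refine norm_sum_le_of_le _ fun i _ => ?_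
    rw [norm_smul, Real.norm_eq_abs]
    exact mul_le_of_le_one_right (abs_nonneg _) (hxb N _)
  choose ν hνb hν using fun j z => exists_tendsto U0 (f j z) _ (hf j z)
  choose L hLb hL using fun j => exists_tendsto (gen (len j)) (ν j) _ (hνb j)
  -- a tuple on which all the limit patterns are constant
  have hgood : ∀ᶠ ι in (gen M).toFilter, StrictMono ι ∧
      ∀ j, ∀ σ : Fin (len j) → Fin M, StrictMono σ → |ν j (ι ∘ σ) - L j| < ε / 4 := by
    refine (eventually_strictMono M).and (eventually_all.2 fun j => eventually_all.2 fun σ => ?_)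
    by_cases hσ : StrictMono σ
    · filter_upwards [((hL j).comp (tendsto_comp σ hσ)).eventually
        (Metric.ball_mem_nhds (L j) (by linarith : 0 < ε / 4))] with ι hι _
      simpa [Metric.mem_ball, Real.dist_eq] using hι
    · exact Eventually.of_forall fun ι h' => absurd h' hσ
  obtain ⟨ι, hι, hι'⟩ := hgood.exists
  -- a staircase realising these limits
  have hN : ∀ᶠ N in (U0 : Filter ℕ), (∀ i, ι i < N) ∧
      ∀ j, ∀ σ : Fin (len j) → Fin M, |f j (ι ∘ σ) N - ν j (ι ∘ σ)| < ε / 4 := by
    refine (eventually_all.2 fun i => eventually_gt_U0 (ι i)).and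
      (eventually_all.2 fun j => eventually_all.2 fun σ => ?_)
    filter_upwards [(hν j (ι ∘ σ)).eventually
      (Metric.ball_mem_nhds (ν j (ι ∘ σ)) (by linarith : 0 < ε / 4))] with N hN
    simpa [Metric.mem_ball, Real.dist_eq] using hN
  obtain ⟨N, hlt, hN'⟩ := hN.exists
  refine ⟨fun i => x N ⟨ι i, hlt i⟩, fun i => φ N ⟨ι i, hlt i⟩, fun i => hx N _, fun i => hφ N _,
    fun j k hjk => hge N _ _ (hι.monotone hjk), fun j k hkj => hle N _ _ (hι hkj), ?_⟩
  intro j σ σ' hσ hσ'
  have e : ∀ τ : Fin (len j) → Fin M,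
      ‖∑ i, c j i • x N ⟨ι (τ i), hlt (τ i)⟩‖ = f j (ι ∘ τ) N := fun τ => by
    simp only [f, xb, Function.comp_apply, hlt, dite_true]
  rw [e σ, e σ']
  have a1 := abs_lt.1 (hι' j σ hσ)
  have a2 := abs_lt.1 (hι' j σ' hσ')
  have a3 := abs_lt.1 (hN' j σ)
  have a4 := abs_lt.1 (hN' j σ')
  exact abs_le.2 ⟨by linarith, by linarith⟩

/-- A finitely supported law on increasing maps whose restrictions to the selectors almost agree. -/
theorem exists_embedding_law (n m : ℕ) (C : Type) [Fintype C] (sel : C → Fin n → Fin m)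
    (hsel : ∀ c, StrictMono (sel c)) (η : ℝ) (hη : 0 < η) :
    ∃ (A : Finset (Fin m → ℕ)) (p : (Fin m → ℕ) → ℝ),
      (∀ a ∈ A, StrictMono a) ∧ (∀ a, 0 ≤ p a) ∧ ∑ a ∈ A, p a = 1 ∧
      ∀ (c c' : C) (Z : Finset (Fin n → ℕ)),
        ∑ z ∈ Z, |(∑ a ∈ A, if (fun i => a (sel c i)) = z then p a else 0)
          - (∑ a ∈ A, if (fun i => a (sel c' i)) = z then p a else 0)| ≤ η := by
  classical
  let I : Type := (C × C) × (Fin n → ℕ)
  let E := lp (fun _ : I => ℝ) 1
  let δ : I → E := fun i => lp.single 1 i (1 : ℝ)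
  let Φ : (Fin m → ℕ) → E := fun a =>
    ∑ q : C × C, (δ (q, a ∘ sel q.1) - δ (q, a ∘ sel q.2))
  set T : Set E := convexHull ℝ (Φ '' {a | StrictMono a})
  by_cases hd : Disjoint (Metric.ball (0 : E) η) T
  · exfalso
    obtain ⟨g, u, hgs, hgt⟩ := geometric_hahn_banach_open (convex_ball (0 : E) η)
      Metric.isOpen_ball (convex_convexHull ℝ _) hd
    have hu : 0 < u := by simpa using hgs 0 (Metric.mem_ball_self hη)
    have hb : ∀ i, |g (δ i)| ≤ ‖g‖ := fun i => by
      have := g.le_opNorm (δ i)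
      rw [show ‖δ i‖ = ‖(1 : ℝ)‖ from lp.norm_single one_pos i 1, norm_one, mul_one] at this
      simpa using this
    choose G _ hG using fun q : C × C =>
      exists_tendsto (gen n) (fun z => g (δ (q, z))) ‖g‖ (fun z => hb _)
    have hlim : Tendsto (fun a => g (Φ a)) (gen m).toFilter (𝓝 0) := by
      have h : Tendsto (fun a : Fin m → ℕ =>
          ∑ q : C × C, (g (δ (q, a ∘ sel q.1)) - g (δ (q, a ∘ sel q.2))))
          (gen m).toFilter (𝓝 (∑ q : C × C, (G q - G q))) :=
        tendsto_finsetSum _ fun q _ => ((hG q).comp (tendsto_comp _ (hsel q.1))).sub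
          ((hG q).comp (tendsto_comp _ (hsel q.2)))
      simpa [Φ, map_sum, map_sub] using h
    obtain ⟨a, ha, ha'⟩ := ((eventually_strictMono m).and
      ((tendsto_order.1 hlim).2 u hu)).exists
    exact absurd (hgt _ (subset_convexHull ℝ _ ⟨a, ha, rfl⟩)) (not_le.2 ha')
  obtain ⟨v, hv, hvT⟩ := Set.not_disjoint_iff.1 hd
  obtain ⟨κ, hκ, w, z, hw, hw1, hz, hsum⟩ := mem_convexHull_iff_exists_fintype.1 hvT
  choose a ha hΦ using hz
  refine ⟨univ.image a, fun b => ∑ i, if a i = b then w i else 0, ?_, ?_, ?_, ?_⟩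
  · simp only [Finset.mem_image, Finset.mem_univ, true_and, forall_exists_index]
    rintro b i rfl
    exact ha i
  · exact fun b => Finset.sum_nonneg fun i _ => by split_ifs; exacts [hw i, le_rfl]
  · rw [Finset.sum_comm]
    simpa using hw1
  intro c c' Z
  have push : ∀ (d : C) (z : Fin n → ℕ),
      (∑ b ∈ univ.image a, if (fun i => b (sel d i)) = z then
        ∑ i, (if a i = b then w i else 0) else 0) = ∑ i, if a i ∘ sel d = z then w i else 0 := by
    intro d z
    simp_rw [Finset.ite_sum_zero]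
    rw [Finset.sum_comm]
    refine Finset.sum_congr rfl fun i _ => ?_
    rw [Finset.sum_eq_single (a i)]
    · rw [if_pos rfl]; rfl
    · intro b _ hb; simp [Ne.symm hb]
    · simp
  have coord : ∀ z : Fin n → ℕ, v ((c, c'), z) = (∑ i, if a i ∘ sel c = z then w i else 0) -
      ∑ i, if a i ∘ sel c' = z then w i else 0 := by
    intro z
    rw [← hsum, lp.coeFn_sum, Finset.sum_apply, ← Finset.sum_sub_distrib]
    refine Finset.sum_congr rfl fun i _ => ?_
    rw [← hΦ i, lp.coeFn_smul, Pi.smul_apply, smul_eq_mul, lp.coeFn_sum, Finset.sum_apply,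
      Finset.sum_eq_single (c, c')]
    · have hne : ∀ y : Fin n → ℕ, y ≠ z → ((c, c'), z) ≠ ((c, c'), y) := fun y hy e =>
        hy (congrArg Prod.snd e).symm
      rw [lp.coeFn_sub, Pi.sub_apply]
      simp only [δ, lp.single_apply, Pi.single_apply]
      by_cases h1 : a i ∘ sel c = z <;> by_cases h2 : a i ∘ sel c' = z
      · rw [if_pos (by rw [h1]), if_pos (by rw [h2]), if_pos h1, if_pos h2]; ring
      · rw [if_pos (by rw [h1]), if_neg (hne _ h2), if_pos h1, if_neg h2]; ring
      · rw [if_neg (hne _ h1), if_pos (by rw [h2]), if_neg h1, if_pos h2]; ring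
      · rw [if_neg (hne _ h1), if_neg (hne _ h2), if_neg h1, if_neg h2]; ring
    · intro q _ hq
      rw [lp.coeFn_sub, Pi.sub_apply]
      simp only [δ, lp.single_apply, Pi.single_apply]
      rw [if_neg (fun e => hq (congrArg Prod.fst e).symm),
        if_neg (fun e => hq (congrArg Prod.fst e).symm), sub_zero]
    · simp
  calc _ = ∑ z ∈ Z, ‖v ((c, c'), z)‖ := by
        refine Finset.sum_congr rfl fun z _ => ?_
        rw [push c z, push c' z, coord z, Real.norm_eq_abs]
    _ = ∑ i ∈ Z.image (fun z => ((c, c'), z)), ‖v i‖ := by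
        rw [Finset.sum_image]
        intro x _ y _ hxy
        exact (Prod.mk.injEq _ _ _ _).mp hxy |>.2
    _ ≤ ‖v‖ := by
        have h := lp.sum_rpow_le_norm_rpow (p := 1) (by norm_num) v
          (Z.image fun z => ((c, c'), z))
        simp only [ENNReal.toReal_one, Real.rpow_one] at h
        exact h
    _ ≤ η := (mem_ball_zero_iff.1 hv).le

end Vale.Agent.P125.Pos
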