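import Vale.Agent.P125.Pos.Sys

/-! Paths avoiding a rare relation between consecutive edges. -/

namespace Vale.Agent.P125.Pos

open Finset

namespace Sys

variable {S E : Type} [Fintype S] [DecidableEq S] [Fintype E] [DecidableEq E] (Y : Sys S E)

lemma wt_nonneg (z : S) : 0 ≤ Y.wt z :=
  sum_nonneg fun e _ => by split_ifs <;> simp [Y.μ_nonneg]

lemma le_wt_src (e : E) : Y.μ e ≤ Y.wt (Y.src e) := by
  refine le_trans (le_of_eq (if_pos rfl).symm) (single_le_sum (f := fun e' =>
    if Y.src e' = Y.src e then Y.μ e' else 0) (fun e' _ => ?_) (mem_univ e))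
  split_ifs <;> simp [Y.μ_nonneg]

lemma wt_eq_tgt (z : S) : Y.wt z = ∑ e, if Y.tgt e = z then Y.μ e else 0 := by
  refine sum_nbij' Y.inv Y.inv (by simp) (by simp) (fun e _ => Y.inv_inv e) (fun e _ => Y.inv_inv e)
    (fun e _ => ?_)
  have h : Y.tgt (Y.inv e) = Y.src e := by rw [← Y.src_inv, Y.inv_inv]
  rw [h, Y.μ_inv]

lemma div_nonneg' (e : E) (z : S) : 0 ≤ Y.μ e / Y.wt z :=
  div_nonneg (Y.μ_nonneg e) (Y.wt_nonneg z)

lemma step_sum_le_one (z : S) : ∑ e, (if Y.src e = z then Y.μ e / Y.wt z else 0) ≤ 1 := by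
  have : ∑ e, (if Y.src e = z then Y.μ e / Y.wt z else 0) = Y.wt z / Y.wt z := by
    conv_rhs => arg 1; rw [wt]
    rw [sum_div]
    exact sum_congr rfl fun e _ => by split_ifs <;> simp
  rw [this]; exact div_self_le_one _

lemma in_mul_step (e' : E) :
    ∑ e, (if Y.src e' = Y.tgt e then Y.μ e * (Y.μ e' / Y.wt (Y.tgt e)) else 0) = Y.μ e' := by
  have h1 : ∀ e, (if Y.src e' = Y.tgt e then Y.μ e * (Y.μ e' / Y.wt (Y.tgt e)) else 0)
      = (if Y.tgt e = Y.src e' then Y.μ e else 0) * (Y.μ e' / Y.wt (Y.src e')) := by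
    intro e
    by_cases h : Y.src e' = Y.tgt e
    · simp [h]
    · simp [h, Ne.symm h]
  simp only [h1, ← sum_mul, ← wt_eq_tgt]
  rcases eq_or_ne (Y.wt (Y.src e')) 0 with h | h
  · have := Y.le_wt_src e'
    rw [h] at this
    rw [h, zero_mul, le_antisymm this (Y.μ_nonneg _)]
  · field_simp

variable (R : E → E → Prop) [DecidableRel R]

/-- probability that the next `n` edges after `e` avoid `R` -/
noncomputable def avoid : ℕ → E → ℝ
  | 0, _ => 1
  | n + 1, e => ∑ e', if Y.src e' = Y.tgt e ∧ ¬ R e e' then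
      Y.μ e' / Y.wt (Y.tgt e) * avoid n e' else 0

lemma avoid_mem (n : ℕ) : ∀ e, 0 ≤ Y.avoid R n e ∧ Y.avoid R n e ≤ 1 := by
  induction n with
  | zero => intro e; simp [avoid]
  | succ n ih =>
    intro e
    constructor
    · exact sum_nonneg fun e' _ => by
        split_ifs <;> simp [mul_nonneg (Y.div_nonneg' _ _) (ih e').1]
    · refine (sum_le_sum fun e' _ => ?_).trans (Y.step_sum_le_one (Y.tgt e))
      by_cases h : Y.src e' = Y.tgt e
      · by_cases hR : R e e'
        · simp [h, hR, Y.div_nonneg']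
        · simp only [h, hR, not_false_eq_true, and_self, ↓reduceIte]
          exact mul_le_of_le_one_right (Y.div_nonneg' _ _) (ih e').2
      · simp [h]

lemma avoid_ge (β : ℝ)
    (hβ : ∑ e, ∑ e', (if Y.src e' = Y.tgt e ∧ R e e' then
      Y.μ e * (Y.μ e' / Y.wt (Y.tgt e)) else 0) ≤ β) :
    ∀ n : ℕ, 1 - n * β ≤ ∑ e, Y.μ e * Y.avoid R n e := by
  intro n
  induction n with
  | zero => simp [avoid, Y.total]
  | succ n ih =>
    have key : ∀ e e', (if Y.src e' = Y.tgt e then Y.μ e * (Y.μ e' / Y.wt (Y.tgt e)) else 0)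
          * Y.avoid R n e'
        - (if Y.src e' = Y.tgt e ∧ R e e' then Y.μ e * (Y.μ e' / Y.wt (Y.tgt e)) else 0)
        ≤ Y.μ e * (if Y.src e' = Y.tgt e ∧ ¬ R e e' then
            Y.μ e' / Y.wt (Y.tgt e) * Y.avoid R n e' else 0) := by
      intro e e'
      have h0 : 0 ≤ Y.μ e * (Y.μ e' / Y.wt (Y.tgt e)) :=
        mul_nonneg (Y.μ_nonneg e) (Y.div_nonneg' _ _)
      by_cases h : Y.src e' = Y.tgt e
      · by_cases hR : R e e'
        · simp only [h, hR, not_true, and_true, and_false, ↓reduceIte, mul_zero]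
          nlinarith [(Y.avoid_mem R n e').2]
        · simp [h, hR, mul_assoc]
      · simp [h]
    have hs := sum_le_sum (s := univ) fun e _ => sum_le_sum (s := univ) fun e' _ => key e e'
    simp only [sum_sub_distrib, ← mul_sum] at hs
    rw [sum_comm (f := fun e e' => (if Y.src e' = Y.tgt e then
      Y.μ e * (Y.μ e' / Y.wt (Y.tgt e)) else 0) * Y.avoid R n e')] at hs
    simp only [← sum_mul, Y.in_mul_step] at hs
    simp only [avoid]
    push_cast
    linarith

lemma pz_ge_avoid (c : ℝ) :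
    ∀ (n : ℕ) (e : E) (G : (Fin n → E) → ℝ), (∀ q, 0 ≤ G q) →
      (∀ q : Fin n → E, (∀ i : Fin n, Y.src (q i) = Y.tgt (Fin.cons (α := fun _ => E) e q i.castSucc)
        ∧ ¬ R (Fin.cons (α := fun _ => E) e q i.castSucc) (q i)) → c ≤ G q) →
      c * Y.avoid R n e ≤ Y.pz n (Y.tgt e) G := by
  intro n
  induction n with
  | zero => intro e G _ hc; simpa [avoid, pz] using hc Fin.elim0 (fun i => i.elim0)
  | succ n ih =>
    intro e G h0 hc
    simp only [avoid, pz, mul_sum]
    refine sum_le_sum fun e' _ => ?_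
    have hp : ∀ (k : ℕ) (z : S) (F : (Fin k → E) → ℝ), (∀ q, 0 ≤ F q) → 0 ≤ Y.pz k z F := by
      intro k
      induction k with
      | zero => intro z F hF; exact hF _
      | succ k ihk =>
        intro z F hF
        exact sum_nonneg fun x _ => by
          split_ifs <;> simp [mul_nonneg (Y.div_nonneg' _ _) (ihk _ _ fun q => hF _)]
    by_cases h : Y.src e' = Y.tgt e
    · by_cases hR : R e e'
      · simp only [h, hR, not_true, and_false, ↓reduceIte, mul_zero]
        exact mul_nonneg (Y.div_nonneg' _ _) (hp _ _ _ fun q => h0 _)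
      · simp only [h, hR, not_false_eq_true, and_self, ↓reduceIte]
        rw [mul_left_comm]
        refine mul_le_mul_of_nonneg_left (ih e' _ (fun q => h0 _) fun q hq => hc _ fun i => ?_)
          (Y.div_nonneg' _ _)
        refine Fin.cases ?_ (fun i => ?_) i
        · simpa using ⟨h, hR⟩
        · simpa [← Fin.succ_castSucc] using hq i
    · simp [h]

/-- If most consecutive pairs avoid `R`, good paths carry most of the mass. -/
lemma pe_ge_of_avoid (β c : ℝ) (hc0 : 0 ≤ c)
    (hβ : ∑ e, ∑ e', (if Y.src e' = Y.tgt e ∧ R e e' then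
      Y.μ e * (Y.μ e' / Y.wt (Y.tgt e)) else 0) ≤ β)
    (n : ℕ) (G : (Fin (n + 1) → E) → ℝ) (h0 : ∀ q, 0 ≤ G q)
    (hG : ∀ q : Fin (n + 1) → E, (∀ i : Fin n, Y.src (q i.succ) = Y.tgt (q i.castSucc)
      ∧ ¬ R (q i.castSucc) (q i.succ)) → c ≤ G q) :
    c * (1 - n * β) ≤ Y.pe (n + 1) G := by
  refine (mul_le_mul_of_nonneg_left (Y.avoid_ge R β hβ n) hc0).trans ?_
  simp only [pe, pz, mul_sum]
  rw [sum_comm]
  refine sum_le_sum fun e _ => ?_
  rw [sum_eq_single (Y.src e) (fun z _ hz => by simp [Ne.symm hz]) (by simp), if_pos rfl]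
  have key := Y.pz_ge_avoid R c n e (fun q => G (Fin.cons e q)) (fun q => h0 _)
    (fun q hq => hG _ fun i => by simpa using hq i)
  have hwt : Y.wt (Y.src e) * (Y.μ e / Y.wt (Y.src e)) = Y.μ e := by
    rcases eq_or_ne (Y.wt (Y.src e)) 0 with h | h
    · have := Y.le_wt_src e
      rw [h] at this
      rw [h, zero_mul, le_antisymm this (Y.μ_nonneg _)]
    · field_simp
  rw [← mul_assoc (Y.wt _), hwt, mul_left_comm]
  exact mul_le_mul_of_nonneg_left key (Y.μ_nonneg e)

end Sys

end Vale.Agent.P125.Pos
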