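import Vale.Agent.P125.Pos.Good

/-! Almost equal marginals make immediate reuse of a label rare. -/

namespace Vale.Agent.P125.Pos

open Finset

lemma repeat_le {Z J : Type*} [Fintype Z] [Fintype J] [Nonempty J] (q : J → Z → ℝ) (m0 : Z → ℝ)
    (e : J → Z → ℝ) (hq : ∀ j z, 0 ≤ q j z) (hm : ∀ z, 0 ≤ m0 z) (he : ∀ j z, 0 ≤ e j z)
    (hle : ∀ j z, q j z ≤ m0 z / Fintype.card J + e j z) :
    ∑ j, ∑ z, q j z ^ 2 / (∑ i, q i z)
      ≤ (∑ z, m0 z) / Fintype.card J + ∑ j, ∑ z, e j z := by
  rw [sum_comm, sum_comm (γ := J) (f := fun j z => e j z), sum_div, ← sum_add_distrib]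
  refine sum_le_sum fun z _ => ?_
  have hw : ∀ j, q j z ≤ ∑ i, q i z := fun j =>
    single_le_sum (f := fun i => q i z) (fun i _ => hq i z) (mem_univ j)
  rcases eq_or_lt_of_le (sum_nonneg (s := (univ : Finset J)) fun i _ => hq i z) with h | h
  · simp only [← h, div_zero, sum_const_zero]
    exact add_nonneg (div_nonneg (hm z) (by positivity)) (sum_nonneg fun j _ => he j z)
  · refine (sum_le_sum (g := fun j => q j z / (∑ i, q i z) * (m0 z / Fintype.card J) + e j z)
      fun j _ => ?_).trans ?_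
    · rw [sq, mul_div_right_comm]
      refine (mul_le_mul_of_nonneg_left (hle j z) (div_nonneg (hq j z) h.le)).trans ?_
      rw [mul_add]
      exact add_le_add le_rfl
        (mul_le_of_le_one_left (he j z) ((div_le_one h).mpr (hw j)))
    · rw [sum_add_distrib, ← sum_mul, ← sum_div, div_self h.ne', one_mul]

end Vale.Agent.P125.Pos
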