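import Vale.Agent.P125.Pos.Lineage
import Vale.Agent.P125.Pos.Marg

/-! A finite reversible system with linearly growing antisymmetric sums. -/

namespace Vale.Agent.P125.Pos

open Finset

universe u

variable {X : Type u} [NormedAddCommGroup X] [NormedSpace ℝ X]

/-- extend a tuple to all naturals, increasingly -/
def extTuple {n : ℕ} (z : Fin n → ℕ) (i : ℕ) : ℕ :=
  if h : i < n then z ⟨i, h⟩ else univ.sup z + 1 + i

lemma extTuple_lt {n : ℕ} (z : Fin n → ℕ) {i : ℕ} (h : i < n) : extTuple z i = z ⟨i, h⟩ := by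
  simp [extTuple, h]

lemma extTuple_strictMono {n : ℕ} {z : Fin n → ℕ} (hz : StrictMono z) :
    StrictMono (extTuple z) := by
  intro a b hab
  rcases lt_or_ge a n with ha | ha <;> rcases lt_or_ge b n with hb | hb
  · rw [extTuple_lt z ha, extTuple_lt z hb]; exact hz hab
  · have h1 : z ⟨a, ha⟩ ≤ univ.sup z := le_sup (mem_univ _)
    rw [extTuple_lt z ha, extTuple, dif_neg (by omega)]; omega
  · omega
  · rw [extTuple, extTuple, dif_neg (by omega), dif_neg (by omega)]; omega

lemma pidx_strictMono {d τ j : ℕ} (hj : j < d) (hτ : 0 < τ) : StrictMono (pidx d τ j) := by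
  intro a b hab
  rcases eq_or_lt_of_le (Nat.div_le_div_right (c := τ) hab.le) with h | h
  · have h1 := Nat.div_add_mod a τ; have h2 := Nat.div_add_mod b τ
    simp only [pidx, h]; rw [h] at h1; omega
  · refine block_lt (Nat.mod_lt _ hτ) ?_
    rcases eq_or_lt_of_le (Nat.div_le_div_right (c := 2) h.le) with h' | h'
    · rw [h']; omega
    · have : 2 * d * (a / τ / 2 + 1) ≤ 2 * d * (b / τ / 2) := Nat.mul_le_mul_left _ h'
      rw [mul_add, mul_one] at this; omega

lemma pidx_lt {d τ j l i : ℕ} (hj : j < d) (hτ : 0 < τ) (hi : i < 2 * l * τ) :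
    pidx d τ j i < 2 * d * l * τ := by
  have h : i / τ < 2 * l := (Nat.div_lt_iff_lt_mul hτ).mpr hi
  have h2 := slot_pos_lt (d := d) (l := l) (k := i / τ / 2) (side := i / τ % 2) hj (by omega)
    (by omega)
  simpa [pidx] using block_lt (i' := 0) (Nat.mod_lt i hτ) h2

/-- the selector of the state at one side of an edge -/
def selFin (d τ l : ℕ) (hτ : 0 < τ) (c : Fin d × Bool) (i : Fin (2 * d * l * τ)) :
    Fin ((2 * l + 5) * (2 * d) * τ) :=
  ⟨selPos d τ c.1 c.2 i, selPos_lt c.2 c.1.2 hτ i.2⟩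

lemma selFin_strictMono (d τ l : ℕ) (hτ : 0 < τ) (c : Fin d × Bool) :
    StrictMono (selFin d τ l hτ c) := fun _ _ h => selPos_strictMono c.2 c.1.2 hτ h

theorem growth (d τ l T M : ℕ) (hd : 0 < d) (hτ : 0 < τ) (η : ℝ)
    (A : Finset (Fin ((2 * l + 5) * (2 * d) * τ) → ℕ))
    (w : (Fin ((2 * l + 5) * (2 * d) * τ) → ℕ) → ℝ)
    (hA : ∀ a ∈ A, StrictMono a) (hw : ∀ a, 0 ≤ w a) (hw1 : ∑ a ∈ A, w a = 1)
    (hmarg : ∀ (c c' : Fin d × Bool) (Z : Finset (Fin (2 * d * l * τ) → ℕ)),
      ∑ z ∈ Z, |(∑ a ∈ A, if (fun i => a (selFin d τ l hτ c i)) = z then w a else 0)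
        - (∑ a ∈ A, if (fun i => a (selFin d τ l hτ c' i)) = z then w a else 0)| ≤ η)
    (hM : ∀ a ∈ A, ∀ i, a i < M)
    (y : ℕ → X) (hy : ∀ i, ‖y i‖ ≤ 1) (B0 B1 : ℝ)
    (hB0 : ∀ q : ℕ → ℕ, StrictMonoOn q (Set.Iio (2 * l * τ)) → (∀ i < 2 * l * τ, q i < M) →
      ‖pat y τ l q‖ ≤ B0)
    (hB1 : ∀ q : ℕ → ℕ, StrictMonoOn q (Set.Iio (2 * (l - 2 * (T + 1)) * ((T + 1) * τ))) →
      (∀ i < 2 * (l - 2 * (T + 1)) * ((T + 1) * τ), q i < M) →
      B1 ≤ ‖pat y ((T + 1) * τ) (l - 2 * (T + 1)) q‖)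
    (r : ℝ) (hr : 0 ≤ r)
    (hlow : 0 ≤ (T + 1 : ℕ) * B1 - 4 * ((T + 1 : ℕ) : ℝ) ^ 2 - (T + 1 : ℕ)) :
    ∃ (S E : Type) (_ : Fintype S) (_ : DecidableEq S) (_ : Fintype E) (_ : DecidableEq E)
      (Y : Sys S E) (v : E → X), (∀ e, v (Y.inv e) = -v e) ∧ (∀ e, ‖v e‖ ≤ B0) ∧
      ((T + 1 : ℕ) * B1 - 4 * ((T + 1 : ℕ) : ℝ) ^ 2 - (T + 1 : ℕ)) ^ r * (1 - T * (1 / d + η))
        ≤ Y.pe (T + 1) (fun q => ‖∑ i, v (q i)‖ ^ r) := by
  classical
  haveI : Nonempty (Fin d) := ⟨⟨0, hd⟩⟩
  set Z : Finset (Fin (2 * d * l * τ) → ℕ) := A.biUnion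
    (fun a => univ.image (fun c => fun i => a (selFin d τ l hτ c i))) with hZ
  have hzZ : ∀ e : A × Fin d × Bool, (fun i => e.1.1 (selFin d τ l hτ e.2 i)) ∈ Z := fun e =>
    mem_biUnion.mpr ⟨e.1.1, e.1.2, mem_image.mpr ⟨e.2, mem_univ _, rfl⟩⟩
  have hZmono : ∀ z ∈ Z, StrictMono z ∧ ∀ i, z i < M := by
    intro z hz
    obtain ⟨a, ha, hz⟩ := mem_biUnion.mp hz
    obtain ⟨c, -, rfl⟩ := mem_image.mp hz
    exact ⟨(hA a ha).comp (selFin_strictMono d τ l hτ c), fun i => hM a ha _⟩
  have hd' : (0:ℝ) < d := by exact_mod_cast hd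
  let Y : Sys {z // z ∈ Z} (A × Fin d × Bool) :=
    { src := fun e => ⟨_, hzZ e⟩
      tgt := fun e => ⟨_, hzZ (e.1, e.2.1, !e.2.2)⟩
      inv := fun e => (e.1, e.2.1, !e.2.2)
      μ := fun e => w e.1 / (2 * d)
      μ_nonneg := fun e => div_nonneg (hw _) (by positivity)
      inv_inv := fun e => by simp
      src_inv := fun e => rfl
      μ_inv := fun e => rfl
      total := by
        rw [Fintype.sum_prod_type]
        simp only [sum_const, card_univ, Fintype.card_prod, Fintype.card_bool, Fintype.card_fin,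
          nsmul_eq_mul]
        rw [sum_coe_sort A (fun a => ((d * 2 : ℕ) : ℝ) * (w a / (2 * d))), ← mul_sum, ← sum_div, hw1]
        push_cast; field_simp }
  set vec : {z // z ∈ Z} → Fin d → X := fun z j => slotVec y d τ l j (extTuple z.1) with hvec
  set v : A × Fin d × Bool → X := fun e =>
    (1/2 : ℝ) • (vec (Y.src e) e.2.1 - vec (Y.tgt e) e.2.1) with hv
  have hvecb : ∀ z j, ‖vec z j‖ ≤ B0 := by
    intro z j
    refine hB0 _ (((extTuple_strictMono (hZmono z.1 z.2).1).comp
      (pidx_strictMono j.2 hτ)).strictMonoOn _) fun i hi => ?_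
    rw [extTuple_lt _ (pidx_lt j.2 hτ hi)]
    exact (hZmono z.1 z.2).2 _
  have hselext : ∀ (e : A × Fin d × Bool), ∀ i < 2 * d * l * τ,
      extTuple (Y.src e).1 i = extTuple e.1.1 (selPos d τ e.2.1 e.2.2 i) := by
    intro e i hi
    rw [extTuple_lt _ hi, extTuple_lt _ (selPos_lt e.2.2 e.2.1.2 hτ hi)]
    rfl
  have hvsrc : ∀ e, ‖v e - vec (Y.src e) e.2.1‖ ≤ 1 := by
    intro e
    have h2 : ‖vec (Y.src e) e.2.1 + vec (Y.tgt e) e.2.1‖ ≤ 2 := by
      have e1 : vec (Y.src e) e.2.1 = slotVec y d τ l e.2.1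
          (fun i => extTuple e.1.1 (selPos d τ e.2.1 e.2.2 i)) :=
        slotVec_congr y e.2.1.2 (hselext e)
      have e2 : vec (Y.tgt e) e.2.1 = slotVec y d τ l e.2.1
          (fun i => extTuple e.1.1 (selPos d τ e.2.1 (!e.2.2) i)) :=
        slotVec_congr y e.2.1.2 (hselext (e.1, e.2.1, !e.2.2))
      rw [e1, e2]
      cases e.2.2
      · exact slotVec_add y hy e.2.1.2 _
      · rw [add_comm]; exact slotVec_add y hy e.2.1.2 _
    have : v e - vec (Y.src e) e.2.1
        = -((1/2 : ℝ) • (vec (Y.src e) e.2.1 + vec (Y.tgt e) e.2.1)) := by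
      simp only [hv]; module
    rw [this, norm_neg, norm_smul, Real.norm_of_nonneg (by norm_num)]
    linarith
  refine ⟨_, _, inferInstance, inferInstance, inferInstance, inferInstance, Y, v, ?_, ?_, ?_⟩
  · intro e
    have h1 : Y.src (Y.inv e) = Y.tgt e := Y.src_inv e
    have h2 : Y.tgt (Y.inv e) = Y.src e := by rw [← Y.src_inv, Y.inv_inv]
    simp only [hv, h1, h2]
    change (1/2:ℝ) • (vec (Y.tgt e) e.2.1 - vec (Y.src e) e.2.1) = _
    module
  · intro e
    simp only [hv, norm_smul]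
    rw [Real.norm_of_nonneg (by norm_num)]
    linarith [norm_sub_le (vec (Y.src e) e.2.1) (vec (Y.tgt e) e.2.1), hvecb (Y.src e) e.2.1,
      hvecb (Y.tgt e) e.2.1]
  · refine Y.pe_ge_of_avoid (fun e e' => e'.2.1 = e.2.1) (1 / d + η) _ (Real.rpow_nonneg hlow r) ?_ T _
      (fun q => Real.rpow_nonneg (norm_nonneg _) r) ?_
    · -- immediate reuse is rare
      set q : Fin d → {z // z ∈ Z} → ℝ := fun j z =>
        ∑ e, if Y.src e = z ∧ e.2.1 = j then Y.μ e else 0 with hq
      have hwt : ∀ z, ∑ j, q j z = Y.wt z := by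
        intro z
        simp only [hq, Sys.wt]
        rw [sum_comm]
        refine sum_congr rfl fun e _ => ?_
        by_cases h : Y.src e = z <;> simp [h]
      have hqt : ∀ j z, q j z = ∑ e, if Y.tgt e = z ∧ e.2.1 = j then Y.μ e else 0 := by
        intro j z
        simp only [hq]
        refine sum_nbij' Y.inv Y.inv (by simp) (by simp) (fun e _ => Y.inv_inv e)
          (fun e _ => Y.inv_inv e) (fun e _ => ?_)
        have h : Y.tgt (Y.inv e) = Y.src e := by rw [← Y.src_inv, Y.inv_inv]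
        rw [h, Y.μ_inv]
      have heq : ∑ e, ∑ e', (if Y.src e' = Y.tgt e ∧ e'.2.1 = e.2.1 then
          Y.μ e * (Y.μ e' / Y.wt (Y.tgt e)) else 0) = ∑ j, ∑ z, q j z ^ 2 / (∑ i, q i z) := by
        have e1 : ∀ e, ∑ e', (if Y.src e' = Y.tgt e ∧ e'.2.1 = e.2.1 then
            Y.μ e * (Y.μ e' / Y.wt (Y.tgt e)) else 0)
            = ∑ j, ∑ z, (if Y.tgt e = z ∧ e.2.1 = j then Y.μ e else 0) * (q j z / Y.wt z) := by
          intro e
          rw [sum_eq_single e.2.1 (fun j _ hj => by simp [Ne.symm hj]) (by simp),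
            sum_eq_single (Y.tgt e) (fun z _ hz => by simp [Ne.symm hz]) (by simp)]
          simp only [and_self, ↓reduceIte, hq, sum_div, mul_sum]
          exact sum_congr rfl fun e' _ => by split_ifs <;> simp
        simp only [e1, hwt]
        rw [sum_comm]
        refine sum_congr rfl fun j _ => ?_
        rw [sum_comm]
        refine sum_congr rfl fun z _ => ?_
        rw [← sum_mul, ← hqt, sq, mul_div_assoc]
      rw [heq]
      set m : Fin d × Bool → (Fin (2 * d * l * τ) → ℕ) → ℝ := fun c z =>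
        ∑ a ∈ A, if (fun i => a (selFin d τ l hτ c i)) = z then w a else 0 with hm
      set c0 : Fin d × Bool := (⟨0, hd⟩, false)
      have hm0 : ∀ z, 0 ≤ m c0 z := fun z => sum_nonneg fun a _ => by split_ifs <;> simp [hw]
      have hqm : ∀ j z, q j z = (m (j, false) z.1 + m (j, true) z.1) / (2 * d) := by
        intro j z
        simp only [hq, hm, Fintype.sum_prod_type, Fintype.sum_bool, ← sum_add_distrib, sum_div]
        rw [← sum_coe_sort A (fun a => ((if (fun i => a (selFin d τ l hτ (j, false) i)) = z.1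
          then w a else 0) + (if (fun i => a (selFin d τ l hτ (j, true) i)) = z.1
          then w a else 0)) / (2 * (d:ℝ)))]
        refine sum_congr rfl fun a _ => ?_
        rw [sum_eq_single j (fun j' _ hj' => by simp [hj']) (by simp)]
        simp only [Y, Subtype.ext_iff, and_true, add_div]
        rw [add_comm]
        split_ifs <;> simp
      have hle : ∀ j z, q j z ≤ m c0 z.1 / Fintype.card (Fin d)
          + (|m (j, false) z.1 - m c0 z.1| + |m (j, true) z.1 - m c0 z.1|) / (2 * d) := by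
        intro j z
        rw [hqm, Fintype.card_fin]
        have h1 := le_abs_self (m (j, false) z.1 - m c0 z.1)
        have h2 := le_abs_self (m (j, true) z.1 - m c0 z.1)
        have : m c0 z.1 / d = (m c0 z.1 + m c0 z.1) / (2 * d) := by field_simp; ring
        rw [this, ← add_div]
        exact div_le_div_of_nonneg_right (by linarith) (by positivity)
      refine (repeat_le q (fun z => m c0 z.1) _ (fun j z => sum_nonneg fun e _ => by
          split_ifs <;> simp [Y.μ_nonneg]) (fun z => hm0 _) (fun j z => by positivity) hle).trans ?_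
      rw [Fintype.card_fin]
      refine add_le_add (div_le_div_of_nonneg_right ?_ hd'.le) ?_
      · rw [sum_coe_sort Z (m c0), hm, sum_comm]
        refine (sum_le_sum fun a _ => ?_).trans hw1.le
        rw [sum_ite_eq]
        split_ifs <;> simp [hw]
      · have h1 : ∀ c, ∑ z : {z // z ∈ Z}, |m c z.1 - m c0 z.1| ≤ η := fun c => by
          rw [sum_coe_sort Z (fun z => |m c z - m c0 z|)]; exact hmarg c c0 Z
        refine (sum_le_sum (g := fun _ => (η + η) / (2 * (d:ℝ))) fun j _ => ?_).trans ?_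
        · rw [← sum_div, sum_add_distrib]
          exact div_le_div_of_nonneg_right (add_le_add (h1 _) (h1 _)) (by positivity)
        · simp only [sum_const, card_univ, Fintype.card_fin, nsmul_eq_mul]
          refine le_of_eq ?_
          field_simp; ring
    · intro q hq
      refine Real.rpow_le_rpow hlow ?_ hr
      set e : ℕ → A × Fin d × Bool := fun s => q ⟨min s T, by omega⟩ with he
      have hcast : ∀ s, s + 1 < T + 1 → Y.src (e (s + 1)) = Y.tgt (e s) ∧
          ¬ (e (s + 1)).2.1 = (e s).2.1 := by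
        intro s hs
        have h := hq ⟨s, by omega⟩
        have e1 : (⟨min (s + 1) T, by omega⟩ : Fin (T + 1)) = (⟨s, by omega⟩ : Fin T).succ := by
          ext; simp; omega
        have e2 : (⟨min s T, by omega⟩ : Fin (T + 1)) = (⟨s, by omega⟩ : Fin T).castSucc := by
          ext; simp; omega
        simp only [he, e1, e2]
        exact h
      have hc : ∀ s, ∃ c : ℤ, s + 1 < T + 1 → (-1 ≤ c ∧ c ≤ 1 ∧
          ∀ k k' : ℕ, k < l → k' < l → (k' : ℤ) = k + c → ∀ i < τ, ∀ i' < τ,
            extTuple (Y.src (e s)).1 ((2 * d * k' + 2 * (e s).2.1) * τ + i)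
              < extTuple (Y.src (e (s+1))).1 ((2 * d * k + 2 * (e (s+1)).2.1) * τ + i') ∧
            extTuple (Y.src (e (s+1))).1 ((2 * d * k + 2 * (e (s+1)).2.1 + 1) * τ + i')
              < extTuple (Y.src (e s)).1 ((2 * d * k' + 2 * (e s).2.1 + 1) * τ + i)) := by
        intro s
        by_cases hs : s + 1 < T + 1
        · obtain ⟨hst, hne⟩ := hcast s hs
          obtain ⟨c, h1, h2, h3⟩ := slot_nest_sel (τ := τ) (e s).2.1.2 (e (s+1)).2.1.2
            (fun h => hne (Fin.ext h.symm)) (e s).2.2 (extTuple_strictMono (hA _ (e s).1.2))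
          refine ⟨c, fun _ => ⟨h1, h2, fun k k' hk hk' hkk i hi i' hi' => ?_⟩⟩
          have b : ∀ (j : Fin d) (k side i : ℕ), k < l → side < 2 → i < τ →
              (2 * d * k + 2 * j + side) * τ + i < 2 * d * l * τ := fun j k side i hk hs hi => by
            simpa using block_lt (i' := 0) hi (slot_pos_lt j.2 hk hs)
          have tgt_eq : ∀ i < 2 * d * l * τ, extTuple (Y.src (e (s+1))).1 i
              = extTuple (e s).1.1 (selPos d τ (e s).2.1 (!(e s).2.2) i) := by
            intro i hi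
            rw [hst]
            exact hselext ((e s).1, (e s).2.1, !(e s).2.2) i hi
          have b0 := b (e (s+1)).2.1 k 0 i' hk (by norm_num) hi'
          have b0' := b (e s).2.1 k' 0 i hk' (by norm_num) hi
          rw [add_zero] at b0 b0'
          rw [hselext _ _ b0', hselext _ _ (b _ k' 1 i hk' (by norm_num) hi), tgt_eq _ b0,
            tgt_eq _ (b _ k 1 i' hk (by norm_num) hi')]
          exact h3 k k' hkk i hi i' hi'
        · exact ⟨0, fun h => absurd h hs⟩
      choose cs hcs using hc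
      obtain ⟨Q, hQ1, hQ2, hQ3⟩ := nested_pattern y hy d τ l (T + 1) hτ (by omega)
        (fun s => extTuple (Y.src (e s)).1)
        (fun s _ => extTuple_strictMono (hZmono _ (Y.src (e s)).2).1)
        (fun s => (e s).2.1) (fun s _ => (e s).2.1.2) cs
        (fun s hs => ⟨(hcs s hs).1, (hcs s hs).2.1⟩) (fun s hs => (hcs s hs).2.2)
      have hQlt : ∀ i < 2 * (l - 2 * (T + 1)) * ((T + 1) * τ), Q i < M := by
        intro i hi
        obtain ⟨s, -, i', hi', hQi⟩ := hQ2 i hi
        rw [hQi, extTuple_lt _ hi']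
        exact (hZmono _ (Y.src (e s)).2).2 _
      have h1 := mul_le_mul_of_nonneg_left (hB1 Q hQ1 hQlt) (Nat.cast_nonneg (α := ℝ) (T + 1))
      have hsum : ∑ i, v (q i) = ∑ s ∈ range (T + 1), v (e s) := by
        rw [← Fin.sum_univ_eq_sum_range (fun s => v (e s))]
        refine sum_congr rfl fun i _ => ?_
        simp only [he]
        congr 2
        ext; simp; omega
      have h2 : ‖∑ s ∈ range (T + 1), slotVec y d τ l (e s).2.1 (extTuple (Y.src (e s)).1)
          - ∑ s ∈ range (T + 1), v (e s)‖ ≤ (T + 1 : ℕ) := by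
        rw [← sum_sub_distrib]
        refine (norm_sum_le _ _).trans ((sum_le_sum fun s _ => ?_).trans (by simp : ∑ _s ∈ range
          (T + 1), (1:ℝ) ≤ _))
        rw [norm_sub_rev]; exact hvsrc _
      rw [hsum]
      have h3 := norm_le_insert'
        (∑ s ∈ range (T + 1), slotVec y d τ l (e s).2.1 (extTuple (Y.src (e s)).1))
        (∑ s ∈ range (T + 1), v (e s))
      linarith

end Vale.Agent.P125.Pos
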