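import Vale.Agent.P125.Pos.Config

/-! Along a good path the slots form one long alternating pattern. -/

namespace Vale.Agent.P125.Pos

open Finset

universe u

variable {X : Type u} [NormedAddCommGroup X] [NormedSpace ℝ X]

lemma nested_pattern (y : ℕ → X) (hy : ∀ i, ‖y i‖ ≤ 1) (d τ l T : ℕ) (hτ : 0 < τ) (hT : 0 < T)
    (zs : ℕ → ℕ → ℕ) (hzs : ∀ s < T, StrictMono (zs s)) (js : ℕ → ℕ) (hjs : ∀ s < T, js s < d)
    (cs : ℕ → ℤ) (hc : ∀ s, s + 1 < T → -1 ≤ cs s ∧ cs s ≤ 1)
    (hstep : ∀ s, s + 1 < T → ∀ k k' : ℕ, k < l → k' < l → (k' : ℤ) = k + cs s →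
      ∀ i < τ, ∀ i' < τ,
        zs s ((2 * d * k' + 2 * js s) * τ + i)
            < zs (s + 1) ((2 * d * k + 2 * js (s + 1)) * τ + i') ∧
        zs (s + 1) ((2 * d * k + 2 * js (s + 1) + 1) * τ + i')
            < zs s ((2 * d * k' + 2 * js s + 1) * τ + i)) :
    ∃ Q : ℕ → ℕ, StrictMonoOn Q (Set.Iio (2 * (l - 2 * T) * (T * τ))) ∧
      (∀ i < 2 * (l - 2 * T) * (T * τ), ∃ s < T, ∃ i' < 2 * d * l * τ, Q i = zs s i') ∧
      (T : ℝ) * ‖pat y (T * τ) (l - 2 * T) Q‖
        ≤ ‖∑ s ∈ range T, slotVec y d τ l (js s) (zs s)‖ + 4 * (T : ℝ) ^ 2 := by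
  set K := l - 2 * T with hK
  obtain ⟨off, hoff0, hoffs⟩ : ∃ off : ℕ → ℤ, off 0 = 0 ∧ ∀ s, off (s + 1) = off s - cs s :=
    ⟨fun s => - ∑ i ∈ range s, cs i, by simp, fun s => by simp [sum_range_succ]; ring⟩
  have hoff : ∀ s < T, -(s : ℤ) ≤ off s ∧ off s ≤ s := by
    intro s
    induction s with
    | zero => intro _; simp [hoff0]
    | succ s ih =>
      intro hs
      have := ih (by omega); have := hc s hs; have := hoffs s
      push_cast; omega
  obtain ⟨kap, hkap⟩ : ∃ kap : ℕ → ℕ → ℕ, ∀ s k, kap s k = ((T : ℤ) + off s + k).toNat :=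
    ⟨_, fun s k => rfl⟩
  have hkl : ∀ s < T, ∀ k < K, kap s k < l := by
    intro s hs k hk
    have := hoff s hs; have := hkap s k
    omega
  have hkc : ∀ s, s + 1 < T → ∀ k, (kap s k : ℤ) = kap (s + 1) k + cs s := by
    intro s hs k
    have := hoff s (by omega); have := hoff (s + 1) hs; have := hkap s k; have := hkap (s+1) k
    have := hoffs s
    omega
  obtain ⟨S, hS⟩ : ∃ S : ℕ → ℕ → ℕ → ℕ, ∀ s k i,
      S s k i = zs s ((2 * d * kap s k + 2 * js s) * τ + i) := ⟨_, fun _ _ _ => rfl⟩
  obtain ⟨E, hE⟩ : ∃ E : ℕ → ℕ → ℕ → ℕ, ∀ s k i,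
      E s k i = zs s ((2 * d * kap s k + 2 * js s + 1) * τ + i) := ⟨_, fun _ _ _ => rfl⟩
  -- nesting
  have hnest : ∀ k < K, ∀ s' < T, ∀ s < s', ∀ i < τ, ∀ i' < τ,
      S s k i < S s' k i' ∧ E s' k i' < E s k i := by
    intro k hk s'
    induction s' with
    | zero => intro _ s hs; omega
    | succ u ih =>
      intro hu s hs i hi i' hi'
      have hst : ∀ i < τ, S u k i < S (u+1) k i' ∧ E (u+1) k i' < E u k i := by
        intro i hi
        rw [hS, hS, hE, hE]
        exact hstep u hu _ _ (hkl _ hu k hk) (hkl _ (by omega) k hk) (hkc u hu k) i hi i' hi'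
      rcases eq_or_lt_of_le (Nat.le_of_lt_succ hs) with rfl | h
      · exact hst i hi
      · have h1 := ih (by omega) s h i hi 0 hτ
        have h2 := hst 0 hτ
        exact ⟨h1.1.trans h2.1, h2.2.trans h1.2⟩
  have hSE : ∀ k, ∀ s < T, ∀ i < τ, ∀ i' < τ, S s k i < E s k i' := by
    intro k s hs i hi i' _
    rw [hS, hE]
    exact hzs s hs (block_lt hi (by omega))
  have hE0 : ∀ k k', k < k' → k' < K → ∀ i < τ, ∀ i' < τ, E 0 k i < S 0 k' i' := by
    intro k k' hkk _ i hi i' _
    rw [hS, hE]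
    refine hzs 0 hT (block_lt hi ?_)
    have hkk' : kap 0 k + 1 ≤ kap 0 k' := by
      have := hoff0; have := hkap 0 k; have := hkap 0 k'
      omega
    have := hjs 0 hT
    have h2 : 2 * d * (kap 0 k + 1) ≤ 2 * d * kap 0 k' := Nat.mul_le_mul_left _ hkk'
    rw [mul_add, mul_one] at h2; omega
  obtain ⟨Q, hQ⟩ : ∃ Q : ℕ → ℕ, ∀ i, Q i = if i / τ / T % 2 = 0
      then S (i / τ % T) (i / τ / T / 2) (i % τ)
      else E (T - 1 - i / τ % T) (i / τ / T / 2) (i % τ) := ⟨_, fun _ => rfl⟩
  have hdecomp : ∀ i < 2 * K * (T * τ), i / τ % T < T ∧ i % τ < τ ∧ i / τ / T / 2 < K := by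
    intro i hi
    refine ⟨Nat.mod_lt _ hT, Nat.mod_lt _ hτ, ?_⟩
    rw [Nat.div_div_eq_div_mul, Nat.div_div_eq_div_mul,
      Nat.div_lt_iff_lt_mul (by positivity)]
    calc i < 2 * K * (T * τ) := hi
      _ = K * (τ * T * 2) := by ring
      _ = K * (τ * (T * 2)) := by ring
  refine ⟨Q, ?_, ?_, ?_⟩
  · intro a ha b hb hab
    obtain ⟨hsa, hia, hka⟩ := hdecomp a ha
    obtain ⟨hsb, hib, hkb⟩ := hdecomp b hb
    have hab' : a < b := hab
    have hlo : ∀ k < K, ∀ s < T, ∀ i < τ, S 0 k 0 ≤ S s k i ∧ S 0 k 0 ≤ E s k i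
        ∧ S s k i ≤ E 0 k (τ - 1) ∧ E s k i ≤ E 0 k (τ - 1) := by
      intro k hk s hs i hi
      have hp : τ - 1 < τ := by omega
      have a1 : S 0 k 0 ≤ S s k i := by
        rcases Nat.eq_zero_or_pos s with rfl | h
        · rw [hS, hS]; exact (hzs 0 hT).monotone (by omega)
        · exact (hnest k hk s hs 0 h 0 hτ i hi).1.le
      have a2 : E s k i ≤ E 0 k (τ - 1) := by
        rcases Nat.eq_zero_or_pos s with rfl | h
        · rw [hE, hE]; exact (hzs 0 hT).monotone (by omega)
        · exact (hnest k hk s hs 0 h (τ - 1) hp i hi).2.le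
      exact ⟨a1, a1.trans (hSE k s hs i hi i hi).le, (hSE k s hs i hi i hi).le.trans a2, a2⟩
    rw [hQ, hQ]
    rcases eq_or_lt_of_le (Nat.div_le_div_right (c := 2) (Nat.div_le_div_right (c := T)
      (Nat.div_le_div_right (c := τ) hab'.le))) with hk | hk
    · rw [← hk]
      rcases eq_or_lt_of_le (Nat.div_le_div_right (c := T) (Nat.div_le_div_right (c := τ) hab'.le))
        with hX | hX
      · rw [← hX]
        rcases eq_or_lt_of_le (Nat.div_le_div_right (c := τ) hab'.le) with hx | hx
        · rw [← hx]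
          have hi : a % τ < b % τ := by
            have h1 := Nat.div_add_mod a τ; have h2 := Nat.div_add_mod b τ
            rw [hx] at h1; omega
          split_ifs
          · rw [hS, hS]; exact hzs _ hsa (by omega)
          · rw [hE, hE]; exact hzs _ (by omega) (by omega)
        · have hs : a / τ % T < b / τ % T := by
            have h1 := Nat.div_add_mod (a / τ) T; have h2 := Nat.div_add_mod (b / τ) T
            rw [hX] at h1; omega
          split_ifs
          · exact (hnest _ hka _ hsb _ hs _ hia _ hib).1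
          · exact (hnest _ hka _ (by omega) _ (by omega) _ hib _ hia).2
      · have h0 : a / τ / T % 2 = 0 := by omega
        have h1 : ¬ b / τ / T % 2 = 0 := by omega
        rw [if_pos h0, if_neg h1]
        have hl : T - 1 < T := by omega
        have p1 : S (a / τ % T) (a / τ / T / 2) (a % τ) < E (T - 1) (a / τ / T / 2) 0 := by
          rcases eq_or_lt_of_le (show a / τ % T ≤ T - 1 by omega) with h | h
          · rw [h]; exact hSE _ _ hl _ hia _ hτ
          · exact (hnest _ hka _ hl _ h _ hia 0 hτ).1.trans (hSE _ _ hl 0 hτ 0 hτ)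
        refine p1.trans_le ?_
        rcases eq_or_lt_of_le (show T - 1 - b / τ % T ≤ T - 1 by omega) with h | h
        · rw [h, hE, hE]; exact (hzs _ hl).monotone (by omega)
        · exact (hnest _ hka _ hl _ h _ hib 0 hτ).2.le
    · have hmid := hE0 _ _ hk hkb (τ - 1) (by omega) 0 hτ
      split_ifs
      · exact ((hlo _ hka _ hsa _ hia).2.2.1).trans_lt (hmid.trans_le (hlo _ hkb _ hsb _ hib).1)
      · exact ((hlo _ hka _ hsa _ hia).2.2.1).trans_lt
          (hmid.trans_le (hlo _ hkb _ (by omega) _ hib).2.1)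
      · exact ((hlo _ hka _ (by omega) _ hia).2.2.2).trans_lt
          (hmid.trans_le (hlo _ hkb _ hsb _ hib).1)
      · exact ((hlo _ hka _ (by omega) _ hia).2.2.2).trans_lt
          (hmid.trans_le (hlo _ hkb _ (by omega) _ hib).2.1)
  · intro i hi
    obtain ⟨hs, hi', hk⟩ := hdecomp i hi
    rw [hQ]
    split_ifs
    · refine ⟨_, hs, _, ?_, hS _ _ _⟩
      have := slot_pos_lt (side := 0) (hjs _ hs) (hkl _ hs _ hk) (by norm_num)
      simpa using block_lt (i' := 0) hi' this
    · have hs' : T - 1 - i / τ % T < T := by omega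
      refine ⟨_, hs', _, ?_, hE _ _ _⟩
      have := slot_pos_lt (side := 1) (hjs _ hs') (hkl _ hs' _ hk) (by norm_num)
      simpa using block_lt (i' := 0) hi' this
  · set v := fun s => clus y τ (fun i => zs s (pidx d τ (js s) i)) with hv
    have hreb : (T : ℝ) • pat y (T * τ) K Q = ∑ s ∈ range T, ∑ k ∈ range K, v s (kap s k) := by
      rw [pat_refine, smul_smul, mul_inv_cancel₀ (by exact_mod_cast hT.ne'), one_smul]
      simp only [pat]
      rw [sum_comm, sum_comm (s := range T)]
      refine sum_congr rfl fun k _ => ?_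
      simp only [hv, clus_slot, clus, ← smul_sum]
      congr 1
      have e1 : ∀ s < T, ∀ i < τ, Q (subBlock τ T s (2 * k * τ + i)) = S s k i ∧
          Q (subBlock τ T s ((2 * k + 1) * τ + i)) = E (T - 1 - s) k i := by
        intro s hs i hi
        have e : ∀ x, subBlock τ T s (x * τ + i) = (x * T + s) * τ + i := fun x => by
          simp [subBlock, block_div _ hi, block_mod _ hi]; ring
        rw [e, e, hQ, hQ]
        simp only [block_div _ hi, block_mod _ hi, block_div _ hs, block_mod _ hs,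
          show (2 * k + 1) % 2 = 1 by omega, show (2 * k + 1) / 2 = k by omega]
        simp
      have e2 : ∀ s ∈ range T, ∑ i ∈ range τ, (y (Q (subBlock τ T s (2 * k * τ + i)))
          - y (Q (subBlock τ T s ((2 * k + 1) * τ + i))))
          = ∑ i ∈ range τ, y (S s k i) - ∑ i ∈ range τ, y (E (T - 1 - s) k i) := by
        intro s hs
        rw [← sum_sub_distrib]
        refine sum_congr rfl fun i hi => ?_
        rw [(e1 s (mem_range.mp hs) i (mem_range.mp hi)).1,
          (e1 s (mem_range.mp hs) i (mem_range.mp hi)).2]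
      rw [sum_congr rfl e2, sum_sub_distrib, sum_range_reflect (fun s => ∑ i ∈ range τ, y (E s k i)) T,
        ← sum_sub_distrib]
      refine sum_congr rfl fun s _ => ?_
      simp only [hS, hE, sum_sub_distrib]
    have hrest : ∀ s ∈ range T,
        ‖∑ k ∈ range K, v s (kap s k) - slotVec y d τ l (js s) (zs s)‖ ≤ 4 * T := by
      intro s hs
      have hs' := mem_range.mp hs
      have hinj : Set.InjOn (kap s) (range K) := by
        intro a _ b _ hab
        have := hoff s hs'; have := hkap s a; have := hkap s b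
        omega
      have hsub : (range K).image (kap s) ⊆ range l := by
        intro x hx
        obtain ⟨k, hk, rfl⟩ := mem_image.mp hx
        exact mem_range.mpr (hkl s hs' k (mem_range.mp hk))
      simp only [slotVec, pat, hv] at *
      rw [← sum_image (f := fun x => clus y τ (fun i => zs s (pidx d τ (js s) i)) x) hinj, norm_sub_rev, ← sum_sdiff hsub, add_sub_cancel_right]
      refine (norm_sum_le _ _).trans ((sum_le_sum fun k _ => norm_clus_le y hy τ _ k).trans ?_)
      rw [sum_const, card_sdiff_of_subset hsub, card_image_of_injOn hinj, nsmul_eq_mul]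
      simp only [card_range]
      have : ((l - K : ℕ) : ℝ) ≤ 2 * T := by exact_mod_cast (by omega : l - K ≤ 2 * T)
      linarith
    have h1 : ‖∑ s ∈ range T, ∑ k ∈ range K, v s (kap s k)
        - ∑ s ∈ range T, slotVec y d τ l (js s) (zs s)‖ ≤ 4 * (T:ℝ) ^ 2 := by
      rw [← sum_sub_distrib]
      refine (norm_sum_le _ _).trans ((sum_le_sum hrest).trans ?_)
      simp; linarith
    rw [← hreb] at h1
    have h2 := norm_le_insert' ((T : ℝ) • pat y (T * τ) K Q)
      (∑ s ∈ range T, slotVec y d τ l (js s) (zs s))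
    rw [norm_smul, Real.norm_of_nonneg (by positivity)] at h2
    linarith

end Vale.Agent.P125.Pos
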