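import Vale.Agent.P125.Pos.Growth
import Vale.Agent.P125.Pos.Generic
import Vale.Agent.P125.Pos.Box
import Vale.Agent.P125.Pos.Cube

/-! Markov type above one excludes staircases. -/

namespace Vale.Agent.P125.Pos

open Finset

universe u

variable {X : Type u} [NormedAddCommGroup X] [NormedSpace ℝ X]

lemma clus_lower {M τ : ℕ} (hτ : 0 < τ) {θ : ℝ} (y0 : Fin M → X) (φ : Fin M → (X →L[ℝ] ℝ))
    (hφ : ∀ i, ‖φ i‖ ≤ 1) (h1 : ∀ j k, j ≤ k → θ ≤ φ k (y0 j))
    (h2 : ∀ j k, k < j → |φ k (y0 j)| ≤ θ / 4) (y : ℕ → X) (hy : ∀ i : Fin M, y i = y0 i)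
    (k : ℕ) (hk : (2 * k + 2) * τ ≤ M) : 3 / 4 * θ ≤ ‖clus y τ id k‖ := by
  have e : (2 * k + 2) * τ = 2 * k * τ + τ + τ := by ring
  have e1 : (2 * k + 1) * τ = 2 * k * τ + τ := by ring
  set c : Fin M := ⟨2 * k * τ + (τ - 1), by omega⟩ with hc
  have hφc : φ c (clus y τ id k) ≤ ‖clus y τ id k‖ :=
    (le_abs_self _).trans ((φ c).le_of_opNorm_le (hφ c) _ |>.trans_eq (one_mul _))
  refine le_trans ?_ hφc
  simp only [clus, map_smul, map_sum, map_sub, smul_eq_mul, id]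
  rw [le_inv_mul_iff₀ (by exact_mod_cast hτ)]
  have : ∀ i ∈ range τ, 3 / 4 * θ ≤ φ c (y (2 * k * τ + i)) - φ c (y ((2 * k + 1) * τ + i)) := by
    intro i hi
    have hi' := mem_range.mp hi
    have a1 := hy ⟨2 * k * τ + i, by omega⟩
    have a2 := hy ⟨(2 * k + 1) * τ + i, by omega⟩
    simp only at a1 a2
    rw [a1, a2]
    have b1 := h1 ⟨2 * k * τ + i, by omega⟩ c (Fin.mk_le_mk.mpr (by omega))
    have b2 := h2 ⟨(2 * k + 1) * τ + i, by omega⟩ c (Fin.mk_lt_mk.mpr (by omega))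
    linarith [(abs_le.mp b2).2]
  calc (τ:ℝ) * (3 / 4 * θ) = ∑ _i ∈ range τ, 3 / 4 * θ := by simp
    _ ≤ _ := sum_le_sum this

lemma subset_clus (y : ℕ → X) (τ K : ℕ) (hτ : 0 < τ) (A : Finset (Fin K)) :
    ∃ q : ℕ → ℕ, StrictMonoOn q (Set.Iio (2 * #A * τ)) ∧
      (∀ i < 2 * #A * τ, q i < 2 * K * τ) ∧
      pat y τ #A q = ∑ k ∈ A, clus y τ id (k : ℕ) := by
  classical
  set e := A.orderEmbOfFin rfl with he
  obtain ⟨g, hg⟩ : ∃ g : ℕ → ℕ, ∀ x (h : x < #A), g x = (e ⟨x, h⟩ : ℕ) :=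
    ⟨fun x => if h : x < #A then (e ⟨x, h⟩ : ℕ) else 0, fun x h => by simp [h]⟩
  have hdiv : ∀ i < 2 * #A * τ, i / (2 * τ) < #A := fun i hi => by
    rw [Nat.div_lt_iff_lt_mul (by omega)]
    rwa [← mul_assoc, mul_comm #A 2]
  refine ⟨fun i => g (i / (2 * τ)) * (2 * τ) + i % (2 * τ), ?_, ?_, ?_⟩
  · intro a ha b hb hab
    have hab' : a < b := hab
    rcases eq_or_lt_of_le (Nat.div_le_div_right (c := 2 * τ) hab'.le) with h | h
    · have h1 := Nat.div_add_mod a (2 * τ); have h2 := Nat.div_add_mod b (2 * τ)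
      simp only [h]; rw [h] at h1; omega
    · have hlt : g (a / (2 * τ)) < g (b / (2 * τ)) := by
        rw [hg _ (hdiv a ha), hg _ (hdiv b hb)]
        exact Fin.lt_def.mp (e.strictMono (Fin.mk_lt_mk.mpr h))
      have := Nat.mul_le_mul_right (2 * τ) hlt
      rw [Nat.succ_mul] at this
      have := Nat.mod_lt a (show 0 < 2 * τ by omega)
      simp only; omega
  · intro i hi
    have hlt : g (i / (2 * τ)) < K := by rw [hg _ (hdiv i hi)]; exact (e _).2
    have := Nat.mul_le_mul_right (2 * τ) hlt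
    rw [Nat.succ_mul, ← mul_assoc K, mul_comm K 2] at this
    have := Nat.mod_lt i (show 0 < 2 * τ by omega)
    simp only; omega
  · rw [pat]
    have hmap : univ.map e.toEmbedding = A := map_orderEmbOfFin_univ A rfl
    conv_rhs => rw [← hmap, sum_map]
    rw [← Fin.sum_univ_eq_sum_range (fun k => clus y τ (fun i => g (i / (2 * τ)) * (2 * τ)
      + i % (2 * τ)) k)]
    refine sum_congr rfl fun k _ => ?_
    simp only [clus, id, RelEmbedding.coe_toEmbedding]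
    congr 1
    refine sum_congr rfl fun i hi => ?_
    have hi' := mem_range.mp hi
    have e0 : 2 * (k:ℕ) * τ + i = (k:ℕ) * (2 * τ) + i := by ring
    have e1 : (2 * (k:ℕ) + 1) * τ + i = (k:ℕ) * (2 * τ) + (τ + i) := by ring
    simp only [e0, e1, block_div _ (show i < 2 * τ by omega), block_mod _ (show i < 2 * τ by omega),
      block_div _ (show τ + i < 2 * τ by omega), block_mod _ (show τ + i < 2 * τ by omega),
      hg _ k.2, Fin.eta]
    ring_nf

set_option maxHeartbeats 800000 in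
theorem no_stairs_of_markovType {p : ℝ} (hp : 1 < p) (h : MarkovType X p)
    {θ : ℝ} (hθ : 0 < θ) : ¬ HasStairs X θ := by
  classical
  intro hs
  obtain ⟨K1, hK1, hedge⟩ := edge_sums_of_markovType hp h
  obtain ⟨n, hn⟩ : ∃ n : ℕ, 2 * (8:ℝ) ^ p * K1 < ((n + 1 : ℕ) : ℝ) ^ (p - 1) := by
    have := ((tendsto_rpow_atTop (by linarith : 0 < p - 1)).comp
      (tendsto_natCast_atTop_atTop.comp (Filter.tendsto_add_atTop_nat 1))).eventually_gt_atTop
        (2 * (8:ℝ) ^ p * K1)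
    simpa using this.exists
  set T := n + 1 with hT
  set d := 4 * T with hd
  set C1 : ℝ := 44 * T with hC1
  obtain ⟨K0, hK0⟩ := no_bounded_family_of_markovType hp h (C1 + 2) (3 / 4 * θ) (by positivity)
  obtain ⟨J, hJ⟩ := pow_unbounded_of_one_lt (2 * (K0:ℝ) / C1) (one_lt_two (α := ℝ))
  have hT0 : 0 < T := by omega
  have hτ : ∀ j : ℕ, 0 < T ^ j := fun j => pow_pos hT0 j
  have hlaw := fun i : Fin (J+1) × Fin (K0+1) =>
    exists_embedding_law (2 * d * i.2 * T ^ (i.1:ℕ)) ((2 * i.2 + 5) * (2 * d) * T ^ (i.1:ℕ))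
      (Fin d × Bool) (selFin d (T ^ (i.1:ℕ)) i.2 (hτ _))
      (selFin_strictMono d _ _ (hτ _)) (1 / (4 * (T:ℝ))) (by positivity)
  choose A w hA hw hw1 hmarg using hlaw
  set M := 2 * K0 * T ^ J + 1 + univ.sup (fun i => (A i).sup (fun a => univ.sup a + 1)) with hM
  obtain ⟨y0, φ, hy0, hφ, hφ1, hφ2, hind⟩ := exists_indiscernible θ hs
    (Fin (J+1) × Fin (K0+1)) (fun i => 2 * i.2 * T ^ (i.1:ℕ))
    (fun i x => patCoef (T ^ (i.1:ℕ)) x) M 1 one_pos
  set y : ℕ → X := fun i => if h : i < M then y0 ⟨i, h⟩ else 0 with hy_def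
  have hy : ∀ i, ‖y i‖ ≤ 1 := fun i => by
    by_cases h : i < M
    · simp [hy_def, h, hy0]
    · simp [hy_def, h]
  have hyy : ∀ i : Fin M, y i = y0 i := fun i => by simp [hy_def]
  obtain ⟨B, hB⟩ : ∃ B : ℕ → ℕ → ℝ, ∀ j l, B j l = ‖pat y (T ^ j) l id‖ := ⟨_, fun _ _ => rfl⟩
  have hlenM : ∀ j ≤ J, ∀ l ≤ K0, 2 * l * T ^ j < M := by
    intro j hj l hl
    have h1 : 2 * l * T ^ j ≤ 2 * K0 * T ^ J :=
      Nat.mul_le_mul (by omega) (Nat.pow_le_pow_right hT0 hj)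
    rw [hM]; omega
  have hclose : ∀ j ≤ J, ∀ l ≤ K0, ∀ q : ℕ → ℕ,
      StrictMonoOn q (Set.Iio (2 * l * T ^ j)) → (∀ i < 2 * l * T ^ j, q i < M) →
      |‖pat y (T ^ j) l q‖ - B j l| ≤ 1 := by
    intro j hj l hl q hq hqM
    have hl' := hlenM j hj l hl
    have := hind (⟨j, by omega⟩, ⟨l, by omega⟩) (fun i => ⟨q i, hqM i i.2⟩)
      (fun i => ⟨i, lt_trans i.2 hl'⟩) (fun a b hab => hq a.2 b.2 hab) (fun a b hab => hab)
    rw [hB, pat_eq_sum, pat_eq_sum]
    have hq1 : ∀ i : Fin (2 * l * T ^ j), y (q i) = y0 ⟨q i, hqM i i.2⟩ := fun i => hyy ⟨q i, _⟩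
    have hq2 : ∀ i : Fin (2 * l * T ^ j), y (id (i:ℕ)) = y0 ⟨i, lt_trans i.2 hl'⟩ := fun i =>
      hyy ⟨i, _⟩
    simp only [hq1, hq2]
    exact this
  obtain ⟨Bm, hBm⟩ : ∃ Bm : ℕ → ℝ, ∀ j, Bm j = (range (K0+1)).sup' ⟨0, by simp⟩ (B j) :=
    ⟨_, fun _ => rfl⟩
  have hle : ∀ j l, l ≤ K0 → B j l ≤ Bm j := fun j l hl => by
    rw [hBm]; exact le_sup' (B j) (mem_range.mpr (by omega))
  have hbig : ∀ j ≤ J, C1 ≤ Bm j := by
    intro j hj
    by_contra hcon
    push Not at hcon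
    refine hK0 ⟨fun k => clus y (T ^ j) id k, fun k => ?_, fun S => ?_⟩
    · refine clus_lower (hτ j) y0 φ hφ hφ1 hφ2 y hyy k ?_
      refine le_trans ?_ (hlenM j hj K0 le_rfl).le
      exact Nat.mul_le_mul_right _ (by omega)
    · obtain ⟨q, hq, hqM, hqe⟩ := subset_clus y (T ^ j) K0 (hτ j) S
      have hS : #S ≤ K0 := (card_le_univ S).trans (by simp)
      have h1 := hclose j hj _ hS q hq
        (fun i hi => (hqM i hi).trans (hlenM j hj K0 le_rfl))
      rw [← hqe]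
      linarith [(abs_le.mp h1).2, hle j _ hS]
  obtain ⟨j, hj, hjj⟩ : ∃ j < J, Bm j / 2 ≤ Bm (j + 1) := by
    by_contra hcon
    push Not at hcon
    have hdec : ∀ i ≤ J, Bm i * 2 ^ i ≤ 2 * K0 := by
      intro i
      induction i with
      | zero =>
        intro _
        rw [pow_zero, mul_one, hBm]
        refine sup'_le _ _ fun l hl => ?_
        rw [hB]
        refine (norm_pat_le y hy _ _ _).trans ?_
        have : (l:ℝ) ≤ K0 := by exact_mod_cast Nat.le_of_lt_succ (mem_range.mp hl)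
        linarith
      | succ i ih =>
        intro hi
        have h1 := hcon i (by omega)
        have h2 := ih (by omega)
        have h3 : (0:ℝ) < 2 ^ i := by positivity
        rw [pow_succ]
        nlinarith
    have h1 := hdec J le_rfl
    have h2 := mul_le_mul_of_nonneg_right (hbig J le_rfl) (show (0:ℝ) ≤ 2 ^ J by positivity)
    rw [div_lt_iff₀ (by positivity)] at hJ
    linarith
  obtain ⟨l, hl, hlmax⟩ := exists_mem_eq_sup' (s := range (K0+1)) ⟨0, by simp⟩ (B (j+1))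
  rw [← hBm] at hlmax
  have hl' : l ≤ K0 := Nat.le_of_lt_succ (mem_range.mp hl)
  have hpow : T ^ (j + 1) = T * T ^ j := pow_succ' T j
  have hidl : ∀ i, i < 2 * l * T ^ (j+1) → i < M := fun i hi => hi.trans (hlenM _ hj l hl')
  have hdrop : Bm (j+1) ≤ B (j+1) (l - 2 * T) + 4 * T := by
    rw [hlmax, hB, hB]
    refine (pat_drop y hy (T ^ (j+1)) id (Nat.sub_le l (2 * T))).trans ?_
    have : (l:ℝ) ≤ ((l - 2 * T : ℕ) : ℝ) + 2 * T := by exact_mod_cast (by omega : l ≤ l - 2 * T + 2 * T)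
    linarith
  set B1 := B (j+1) (l - 2 * T) - 1 with hB1d
  have hTr : (1:ℝ) ≤ T := by exact_mod_cast hT0
  have hb := hbig j hj.le
  have hlowB : (T:ℝ) * (Bm j / 4) ≤ (T:ℝ) * B1 - 4 * (T:ℝ) ^ 2 - T := by
    have : Bm j / 4 ≤ B1 - 4 * T - 1 := by linarith
    nlinarith
  have hlow0 : 0 ≤ (T:ℝ) * (Bm j / 4) := by
    have : 0 ≤ Bm j := by linarith
    positivity
  set i0 : Fin (J+1) × Fin (K0+1) := (⟨j, by omega⟩, ⟨l, by omega⟩)
  obtain ⟨S, E, _, _, _, _, Y, v, hv, hvb, hgrow⟩ := growth (X := X) d (T ^ j) l n M (by omega)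
    (hτ j) (1 / (4 * (T:ℝ))) (A i0) (w i0) (hA i0) (hw i0) (hw1 i0) (hmarg i0)
    (fun a ha i => by
      have h1 : a i + 1 ≤ univ.sup a + 1 := by
        have : a i ≤ univ.sup a := le_sup (mem_univ i)
        omega
      have h2 : univ.sup a + 1 ≤ (A i0).sup (fun a => univ.sup a + 1) :=
        le_sup (f := fun a => univ.sup a + 1) ha
      have h3 : (A i0).sup (fun a => univ.sup a + 1)
          ≤ univ.sup (fun i => (A i).sup (fun a => univ.sup a + 1)) :=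
        le_sup (f := fun i => (A i).sup (fun a => univ.sup a + 1)) (mem_univ i0)
      rw [hM]; omega)
    y hy (Bm j + 1) B1
    (fun q hq hqM => by linarith [(abs_le.mp (hclose j hj.le l hl' q hq hqM)).2, hle j l hl'])
    (fun q hq hqM => by
      have h1 := hclose (j+1) hj (l - 2 * T) (by omega) q (by rwa [hpow]) (by rwa [hpow])
      rw [hpow] at h1
      linarith [(abs_le.mp h1).1])
    p (by linarith) (by rw [← hT]; linarith)
  rw [← hT] at hgrow
  have hup := hedge S E Y v hv T (by omega)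
  have hsum : ∑ e, Y.μ e * ‖v e‖ ^ p ≤ (2 * Bm j) ^ p := by
    calc ∑ e, Y.μ e * ‖v e‖ ^ p ≤ ∑ e, Y.μ e * (2 * Bm j) ^ p := by
          refine sum_le_sum fun e _ => mul_le_mul_of_nonneg_left ?_ (Y.μ_nonneg e)
          exact Real.rpow_le_rpow (norm_nonneg _) ((hvb e).trans (by linarith)) (by linarith)
      _ = _ := by rw [← sum_mul, Y.total, one_mul]
  have hmass : (1:ℝ) / 2 ≤ 1 - (n:ℝ) * (1 / (d:ℕ) + 1 / (4 * (T:ℝ))) := by
    have e : (n:ℝ) * (1 / (d:ℕ) + 1 / (4 * (T:ℝ))) = (n:ℝ) / (2 * T) := by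
      rw [hd]; push_cast; field_simp; ring
    rw [e]
    have : (n:ℝ) / (2 * T) ≤ 1 / 2 := by
      rw [div_le_iff₀ (by positivity), hT]; push_cast; linarith
    linarith
  have hBp : 0 < Bm j := by linarith
  have key : ((T:ℝ) * (Bm j / 4)) ^ p * (1/2) ≤ K1 * T * (2 * Bm j) ^ p :=
    le_trans (mul_le_mul (Real.rpow_le_rpow hlow0 hlowB (by linarith)) hmass (by norm_num)
      (Real.rpow_nonneg (hlow0.trans hlowB) p)) (hgrow.trans (hup.trans
        (mul_le_mul_of_nonneg_left hsum (by positivity))))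
  have e1 : (T:ℝ) * (Bm j / 4) = T * (2 * Bm j) / 8 := by ring
  rw [e1, Real.div_rpow (by positivity) (by norm_num),
    Real.mul_rpow (by positivity) (by positivity)] at key
  have h2 : 0 < (2 * Bm j) ^ p := Real.rpow_pos_of_pos (by linarith) p
  have h8 : (0:ℝ) < 8 ^ p := Real.rpow_pos_of_pos (by norm_num) p
  have hTp : (T:ℝ) ^ p = (T:ℝ) ^ (p - 1) * T := by
    rw [← Real.rpow_add_one (by positivity), sub_add_cancel]
  rw [hTp, div_mul_eq_mul_div, div_le_iff₀ h8] at key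
  have h3 := mul_lt_mul_of_pos_right hn (mul_pos (show (0:ℝ) < T by linarith) h2)
  linarith

end Vale.Agent.P125.Pos
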