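import Vale.Agent.P125.Pos.Pot

/-! Flat martingales give staircases. -/

namespace Vale.Agent.P125.Pos

open Finset

universe u

namespace Stair

variable {n : ℕ}

/-- Average over the discrete cube. -/
noncomputable def avg (h : (Fin n → Bool) → ℝ) : ℝ := (∑ ω, h ω) / 2 ^ n

/-- First `k` coordinates from `ω`, the others from `ω'`. -/
def mix (k : ℕ) (ω ω' : Fin n → Bool) : Fin n → Bool :=
  fun i => if (i : ℕ) < k then ω i else ω' i

/-- Conditional expectation given the first `k` coordinates. -/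
noncomputable def cexp (k : ℕ) (h : (Fin n → Bool) → ℝ) (ω : Fin n → Bool) : ℝ :=
  avg fun ω' => h (mix k ω ω')

lemma avg_mono {h g : (Fin n → Bool) → ℝ} (hh : ∀ ω, h ω ≤ g ω) : avg h ≤ avg g :=
  div_le_div_of_nonneg_right (sum_le_sum fun ω _ => hh ω) (by positivity)

lemma avg_add (h g : (Fin n → Bool) → ℝ) : avg (fun ω => h ω + g ω) = avg h + avg g := by
  simp only [avg, sum_add_distrib, add_div]

lemma avg_sub (h g : (Fin n → Bool) → ℝ) : avg (fun ω => h ω - g ω) = avg h - avg g := by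
  simp only [avg, sum_sub_distrib, sub_div]

lemma avg_mul (a : ℝ) (h : (Fin n → Bool) → ℝ) : avg (fun ω => a * h ω) = a * avg h := by
  simp only [avg, ← mul_sum, mul_div_assoc]

lemma avg_sum {ι : Type*} (s : Finset ι) (h : ι → (Fin n → Bool) → ℝ) :
    avg (fun ω => ∑ i ∈ s, h i ω) = ∑ i ∈ s, avg (h i) := by
  simp only [avg, ← sum_div]
  rw [sum_comm]

lemma avg_const (a : ℝ) : avg (fun _ : Fin n → Bool => a) = a := by
  simp [avg]

lemma avg_swap (F : (Fin n → Bool) → (Fin n → Bool) → ℝ) :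
    avg (fun ω => avg (fun ω' => F ω ω')) = avg (fun ω' => avg (fun ω => F ω ω')) := by
  simp only [avg, ← sum_div]
  rw [sum_comm]

lemma avg_involution (k : ℕ) (F : (Fin n → Bool) → (Fin n → Bool) → ℝ) :
    avg (fun ω => avg (fun ω' => F ω ω'))
      = avg (fun ω => avg (fun ω' => F (mix k ω ω') (mix k ω' ω))) := by
  simp only [avg, ← sum_div]
  congr 2
  rw [← Fintype.sum_prod_type' (f := F),
    ← Fintype.sum_prod_type' (f := fun ω ω' => F (mix k ω ω') (mix k ω' ω))]
  have inv : Function.Involutive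
      (fun p : (Fin n → Bool) × (Fin n → Bool) => (mix k p.1 p.2, mix k p.2 p.1)) := by
    intro p
    refine Prod.ext ?_ ?_ <;> funext i <;> simp only [mix] <;> split_ifs <;> rfl
  exact (Equiv.sum_comp inv.toPerm (fun p => F p.1 p.2)).symm

lemma cond_adjoint (k : ℕ) (h g : (Fin n → Bool) → ℝ) :
    avg (fun ω => cexp k h ω * g ω) = avg (fun ω => h ω * cexp k g ω) := by
  have e1 : ∀ ω, cexp k h ω * g ω = avg (fun ω' => h (mix k ω ω') * g ω) := by
    intro ω; rw [cexp, mul_comm, ← avg_mul]; simp only [mul_comm]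
  have e2 : ∀ ω, h ω * cexp k g ω = avg (fun ω' => h ω * g (mix k ω ω')) := by
    intro ω; rw [cexp, ← avg_mul]
  simp only [e1, e2]
  rw [avg_involution k (fun ω ω' => h ω * g (mix k ω ω'))]
  have : ∀ ω ω' : Fin n → Bool, mix k (mix k ω ω') (mix k ω' ω) = ω := by
    intro ω ω'; funext i; simp only [mix]; split_ifs <;> rfl
  simp only [this]

lemma avg_cond (k : ℕ) (h : (Fin n → Bool) → ℝ) : avg (cexp k h) = avg h := by
  have := cond_adjoint k h (fun _ => 1)
  simp only [mul_one] at this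
  rw [show avg (cexp k h) = _ from this]
  simp [cexp, avg_const]

lemma cond_cond {j k : ℕ} (hjk : j ≤ k) (h : (Fin n → Bool) → ℝ) (ω : Fin n → Bool) :
    cexp j (cexp k h) ω = cexp j h ω := by
  show _ = avg (fun ω' => h (mix j ω ω'))
  rw [← avg_cond k (fun ω' => h (mix j ω ω'))]
  simp only [cexp]
  congr 1
  funext ω'
  congr 1
  funext ω''
  congr 1
  funext i
  simp only [mix]
  split_ifs <;> first | rfl | omega

lemma cond_inner {j k : ℕ} (hjk : j ≤ k) (h : (Fin n → Bool) → ℝ) :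
    avg (fun ω => cexp k h ω * cexp j h ω) = avg (fun ω => h ω * cexp j h ω) := by
  rw [show (fun ω => cexp k h ω * cexp j h ω) = fun ω => cexp j h ω * cexp k h ω by
    funext ω; ring, cond_adjoint]
  simp only [cond_cond hjk]

/-- Energy at time `k`. -/
noncomputable def en (h : (Fin n → Bool) → ℝ) (k : ℕ) : ℝ := avg fun ω => cexp k h ω ^ 2

lemma cond_diff {j k : ℕ} (hjk : j ≤ k) (h : (Fin n → Bool) → ℝ) :
    avg (fun ω => (cexp k h ω - cexp j h ω) ^ 2) = en h k - en h j := by
  have e : (fun ω => (cexp k h ω - cexp j h ω) ^ 2)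
      = fun ω => (cexp k h ω ^ 2 + cexp j h ω ^ 2) - 2 * (cexp k h ω * cexp j h ω) := by
    funext ω; ring
  rw [e, avg_sub, avg_add, avg_mul, cond_inner hjk]
  rw [← cond_inner le_rfl h]
  simp only [en, sq]; ring

lemma en_mono (h : (Fin n → Bool) → ℝ) : Monotone (en h) := fun j k hjk => by
  have h0 : 0 ≤ avg (fun ω => (cexp k h ω - cexp j h ω) ^ 2) :=
    div_nonneg (sum_nonneg fun ω _ => sq_nonneg _) (by positivity)
  rw [cond_diff hjk] at h0; linarith

lemma en_nonneg (h : (Fin n → Bool) → ℝ) (k : ℕ) : 0 ≤ en h k :=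
  div_nonneg (sum_nonneg fun _ _ => sq_nonneg _) (by positivity)

lemma abs_cond_le {h : (Fin n → Bool) → ℝ} (hh : ∀ ω, |h ω| ≤ 1) (k : ℕ) (ω : Fin n → Bool) :
    |cexp k h ω| ≤ 1 := by
  rw [abs_le]
  constructor
  · exact (avg_const (n := n) (-1)).symm.le.trans (avg_mono fun ω' => (abs_le.mp (hh _)).1)
  · exact (avg_mono fun ω' => (abs_le.mp (hh _)).2).trans (avg_const (n := n) 1).le

lemma en_le_one {h : (Fin n → Bool) → ℝ} (hh : ∀ ω, |h ω| ≤ 1) (k : ℕ) : en h k ≤ 1 :=
  (avg_mono fun ω => (sq_le_one_iff_abs_le_one _).mpr (abs_cond_le hh k ω)).trans (avg_const 1).le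

variable {X : Type u} [NormedAddCommGroup X] [NormedSpace ℝ X]

/-- The signed increment of a tree. -/
noncomputable def inc (d : Fin n → (Fin n → Bool) → X) (i : ℕ) (ω : Fin n → Bool) : X :=
  if h : i < n then (if ω ⟨i, h⟩ then d ⟨i, h⟩ ω else -d ⟨i, h⟩ ω) else 0

/-- A tree with increments bounded by one. -/
structure IsTree (d : Fin n → (Fin n → Bool) → X) : Prop where
  adapted : ∀ i ω ω', (∀ j, j < i → ω j = ω' j) → d i ω = d i ω'
  bound : ∀ i ω, ‖d i ω‖ ≤ 1

lemma exists_tree : ∀ (n : ℕ) (x : X) (b : ℝ), b < pot 1 n x →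
    ∃ d : Fin n → (Fin n → Bool) → X, IsTree d ∧
      b < avg (fun ω => ‖x + ∑ i : Fin n, inc d i ω‖)
  | 0, x, b, hb => by
    refine ⟨fun i => i.elim0, ⟨fun i => i.elim0, fun i => i.elim0⟩, ?_⟩
    simpa [avg, pot] using hb
  | n + 1, x, b, hb => by
    have hne : Nonempty {d : X // ‖d‖ ≤ 1} := ⟨⟨0, by simp⟩⟩
    simp only [pot] at hb
    obtain ⟨⟨d₀, hd₀⟩, hd⟩ := exists_lt_of_lt_ciSup hb
    set δ := (pot 1 n (x + d₀) + pot 1 n (x - d₀)) / 2 - b with hδ
    have hδ0 : 0 < δ := sub_pos.mpr hd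
    obtain ⟨dp, hp, hpb⟩ := exists_tree n (x + d₀) (pot 1 n (x + d₀) - δ) (by linarith)
    obtain ⟨dm, hm, hmb⟩ := exists_tree n (x - d₀) (pot 1 n (x - d₀) - δ) (by linarith)
    let d : Fin (n + 1) → (Fin (n + 1) → Bool) → X :=
      Fin.cons (fun _ => d₀) fun i ω =>
        if ω 0 then dp i (Fin.tail ω) else dm i (Fin.tail ω)
    refine ⟨d, ⟨?_, ?_⟩, ?_⟩
    · intro i ω ω' hij
      induction i using Fin.cases with
      | zero => simp [d]
      | succ i =>
        have h0 : ω 0 = ω' 0 := hij 0 (Fin.succ_pos i)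
        have ht : ∀ j, j < i → Fin.tail ω j = Fin.tail ω' j := fun j hj =>
          hij j.succ (Fin.succ_lt_succ_iff.mpr hj)
        simp only [d, Fin.cons_succ, h0]
        split_ifs
        · exact hp.adapted i _ _ ht
        · exact hm.adapted i _ _ ht
    · intro i ω
      induction i using Fin.cases with
      | zero => simpa [d] using hd₀
      | succ i =>
        simp only [d, Fin.cons_succ]
        split_ifs
        · exact hp.bound i _
        · exact hm.bound i _
    · have key : ∀ (s : Bool) (τ : Fin n → Bool),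
          x + ∑ i : Fin (n + 1), inc d i (Fin.cons s τ) =
            if s then (x + d₀) + ∑ i : Fin n, inc dp i τ
            else (x - d₀) + ∑ i : Fin n, inc dm i τ := by
        intro s τ
        rw [Fin.sum_univ_succ]
        cases s
        · simp only [inc, Fin.is_lt, dite_true, Fin.val_zero, Fin.eta]
          simp [d, add_assoc, sub_eq_add_neg]
        · simp only [inc, Fin.is_lt, dite_true, Fin.val_zero, Fin.eta]
          simp [d, add_assoc]
      simp only [avg] at hpb hmb ⊢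
      rw [← Equiv.sum_comp (Fin.consEquiv (fun _ : Fin (n + 1) => Bool)),
        Fintype.sum_prod_type, Fintype.sum_bool]
      simp only [Fin.consEquiv, Equiv.coe_fn_mk, key, if_true, Bool.false_eq_true, if_false]
      rw [pow_succ, ← div_div, add_div]
      linarith

/-- Normalised block sum of increments. -/
noncomputable def blk (d : Fin n → (Fin n → Bool) → X) (b i₀ : ℕ) (ω : Fin n → Bool) : X :=
  (b : ℝ)⁻¹ • ∑ i ∈ range b, inc d (i₀ + i) ω

/-- Averaged functional given the first `k` coordinates. -/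
noncomputable def psi (φ : (Fin n → Bool) → (X →L[ℝ] ℝ)) (k : ℕ) (ω : Fin n → Bool) :
    X →L[ℝ] ℝ :=
  (2 ^ n : ℝ)⁻¹ • ∑ ω', φ (mix k ω ω')

lemma psi_apply (φ : (Fin n → Bool) → (X →L[ℝ] ℝ)) (k : ℕ) (ω : Fin n → Bool) (x : X) :
    psi φ k ω x = avg (fun ω' => φ (mix k ω ω') x) := by
  simp [psi, avg, div_eq_inv_mul]

variable {d : Fin n → (Fin n → Bool) → X}

lemma norm_inc_le (hd : IsTree d) (i : ℕ) (ω : Fin n → Bool) : ‖inc d i ω‖ ≤ 1 := by
  unfold inc; split_ifs <;> simp [hd.bound]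

lemma inc_mix (hd : IsTree d) {i k : ℕ} (hik : i < k) (ω ω' : Fin n → Bool) :
    inc d i (mix k ω ω') = inc d i ω := by
  unfold inc
  split
  · rename_i h
    have e1 : mix k ω ω' ⟨i, h⟩ = ω ⟨i, h⟩ := by simp [mix, hik]
    have e2 : d ⟨i, h⟩ (mix k ω ω') = d ⟨i, h⟩ ω := hd.adapted _ _ _ fun j hj => by
      have hj' : (j : ℕ) < i := hj
      simp [mix, show (j : ℕ) < k by omega]
    rw [e1, e2]
  · rfl

lemma norm_blk_le (hd : IsTree d) (b i₀ : ℕ) (ω : Fin n → Bool) : ‖blk d b i₀ ω‖ ≤ 1 := by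
  rcases Nat.eq_zero_or_pos b with rfl | hb
  · simp [blk]
  rw [blk, norm_smul, norm_inv, Real.norm_natCast, inv_mul_le_iff₀ (by exact_mod_cast hb), mul_one]
  exact (norm_sum_le _ _).trans ((sum_le_sum fun i _ => norm_inc_le hd _ _).trans (by simp))

variable {φ : (Fin n → Bool) → (X →L[ℝ] ℝ)}

lemma norm_psi_le (hφ : ∀ ω, ‖φ ω‖ ≤ 1) (k : ℕ) (ω : Fin n → Bool) : ‖psi φ k ω‖ ≤ 1 := by
  refine ContinuousLinearMap.opNorm_le_bound _ zero_le_one fun x => ?_
  rw [psi_apply, one_mul, Real.norm_eq_abs, abs_le]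
  have h : ∀ ω', |φ ω' x| ≤ ‖x‖ := fun ω' =>
    (Real.norm_eq_abs _).symm.le.trans
      (((φ ω').le_opNorm x).trans (mul_le_of_le_one_left (norm_nonneg _) (hφ ω')))
  exact ⟨(avg_const (n := n) (-‖x‖)).symm.le.trans (avg_mono fun ω' => (abs_le.mp (h _)).1),
    (avg_mono fun ω' => (abs_le.mp (h _)).2).trans (avg_const (n := n) ‖x‖).le⟩

lemma abs_app_le (hd : IsTree d) (hφ : ∀ ω, ‖φ ω‖ ≤ 1) (b i₀ : ℕ) (ω : Fin n → Bool) :
    |φ ω (blk d b i₀ ω)| ≤ 1 := by
  rw [← Real.norm_eq_abs]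
  exact ((φ ω).le_opNorm _).trans (mul_le_one₀ (hφ ω) (norm_nonneg _) (norm_blk_le hd _ _ _))

lemma psi_past (hd : IsTree d) {b i₀ k : ℕ} (h : i₀ + b ≤ k) (ω : Fin n → Bool) :
    psi φ k ω (blk d b i₀ ω) = cexp k (fun ω' => φ ω' (blk d b i₀ ω')) ω := by
  rw [psi_apply]
  refine congrArg avg (funext fun ω' => ?_)
  congr 1
  simp only [blk]
  congr 1
  refine sum_congr rfl fun i hi => ?_
  rw [mem_range] at hi
  exact (inc_mix hd (by omega) ω ω').symm

lemma psi_future (hd : IsTree d) (hφ : ∀ ω, ‖φ ω‖ ≤ 1) {b i₀ k : ℕ} (hb : 0 < b) (hk : k ≤ i₀) :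
    avg (fun ω => psi φ k ω (blk d b i₀ ω) ^ 2) ≤ 1 / b := by
  have hone : ∀ i ω, |psi φ k ω (inc d i ω)| ≤ 1 := fun i ω => by
    rw [← Real.norm_eq_abs]
    exact ((psi φ k ω).le_opNorm _).trans
      (mul_le_one₀ (norm_psi_le hφ k ω) (norm_nonneg _) (norm_inc_le hd _ _))
  have horth : ∀ i l, k ≤ l → i < l →
      avg (fun ω => psi φ k ω (inc d i ω) * psi φ k ω (inc d l ω)) = 0 := by
    intro i l hkl hil
    by_cases hl : l < n
    · let F : (Fin n → Bool) → (Fin n → Bool) := fun ω => Function.update ω ⟨l, hl⟩ (!ω ⟨l, hl⟩)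
      have hinv : Function.Involutive F := fun ω => by simp [F]
      have hmix : ∀ ω ω', mix k (F ω) ω' = mix k ω ω' := by
        intro ω ω'; funext j; simp only [mix, F]
        split_ifs with hj
        · exact Function.update_of_ne (fun he => by rw [he] at hj; simp at hj; omega) _ _
        · rfl
      have hpsi : ∀ ω, psi φ k (F ω) = psi φ k ω := fun ω => by simp only [psi, hmix]
      have hi : ∀ ω, inc d i (F ω) = inc d i ω := by
        intro ω
        have hm : mix l (F ω) ω = ω := by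
          funext j; simp only [mix, F]
          split_ifs with hj
          · exact Function.update_of_ne (fun he => by rw [he] at hj; simp at hj) _ _
          · rfl
        have := inc_mix hd hil (F ω) ω
        rw [hm] at this
        exact this.symm
      have hl' : ∀ ω, inc d l (F ω) = -inc d l ω := by
        intro ω
        have hdl : d ⟨l, hl⟩ (F ω) = d ⟨l, hl⟩ ω := hd.adapted _ _ _ fun j hj =>
          Function.update_of_ne (ne_of_lt hj) _ _
        simp only [inc, dif_pos hl, hdl, F, Function.update_self]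
        cases ω ⟨l, hl⟩ <;> simp
      have hsum : ∑ ω, psi φ k ω (inc d i ω) * psi φ k ω (inc d l ω)
          = -∑ ω, psi φ k ω (inc d i ω) * psi φ k ω (inc d l ω) := by
        conv_lhs => rw [← Equiv.sum_comp hinv.toPerm]
        rw [← sum_neg_distrib]
        exact sum_congr rfl fun ω _ => by simp [hpsi, hi, hl']
      unfold avg
      rw [show ∑ ω, psi φ k ω (inc d i ω) * psi φ k ω (inc d l ω) = 0 by linarith, zero_div]
    · simp [inc, hl, avg]
  have e : (fun ω => psi φ k ω (blk d b i₀ ω) ^ 2) = fun ω => ((b:ℝ)⁻¹) ^ 2 *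
      ∑ i ∈ range b, ∑ l ∈ range b,
        psi φ k ω (inc d (i₀ + i) ω) * psi φ k ω (inc d (i₀ + l) ω) := by
    funext ω
    simp only [blk, map_smul, map_sum, smul_eq_mul]
    rw [mul_pow, sq (∑ i ∈ range b, _), sum_mul_sum]
  rw [e, avg_mul, avg_sum]
  simp only [avg_sum]
  have hdiag : ∀ i ∈ range b, ∑ l ∈ range b,
      avg (fun ω => psi φ k ω (inc d (i₀ + i) ω) * psi φ k ω (inc d (i₀ + l) ω)) ≤ 1 := by
    intro i hi
    rw [sum_eq_single_of_mem i hi]
    · refine (avg_mono fun ω => ?_).trans (avg_const 1).le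
      rw [← sq]; exact (sq_le_one_iff_abs_le_one _).mpr (hone _ _)
    · intro l _ hli
      rcases lt_or_gt_of_ne hli with h | h
      · have := horth (i₀ + l) (i₀ + i) (by omega) (by omega)
        rw [← this]
        exact congrArg avg (funext fun ω => mul_comm _ _)
      · exact horth _ _ (by omega) (by omega)
  calc ((b:ℝ)⁻¹) ^ 2 * _ ≤ ((b:ℝ)⁻¹) ^ 2 * b :=
        mul_le_mul_of_nonneg_left ((sum_le_sum hdiag).trans (by simp)) (sq_nonneg _)
    _ = 1 / b := by field_simp

lemma sum_windows (h : ℕ → ℝ) (a : ℕ) : ∀ R, ∑ o ∈ range R, h (o + a)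
    = ∑ p ∈ range (R + a), h p - ∑ p ∈ range a, h p
  | 0 => by simp
  | R + 1 => by
    rw [sum_range_succ, sum_windows h a R, show R + 1 + a = (R + a) + 1 by omega,
      sum_range_succ _ (R + a)]
    ring

end Stair

open Stair in
theorem stairs_of_flat {X : Type u} [NormedAddCommGroup X] [NormedSpace ℝ X] (h : Flat X) :
    ∃ θ : ℝ, 0 < θ ∧ θ ≤ 1 ∧ HasStairs X θ := by
  classical
  obtain ⟨c₀, hc₀, hflat⟩ := h
  set c : ℝ := min c₀ 1 with hcdef
  have hc : 0 < c := lt_min hc₀ one_pos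
  have hc1 : c ≤ 1 := min_le_right _ _
  refine ⟨c / 4, by positivity, by linarith, fun m => ?_⟩
  obtain ⟨m', hm'pos, hm'R⟩ : ∃ m' : ℕ, 0 < m' ∧ 8 * (m:ℝ) / c ≤ m' :=
    ⟨⌈8 * (m:ℝ) / c⌉₊ + 1, Nat.succ_pos _, (Nat.le_ceil _).trans (by push_cast; linarith)⟩
  obtain ⟨N, hNpos, hNR⟩ : ∃ N : ℕ, 0 < N ∧ 3 * 2048 * (m':ℝ)^2 / c^3 ≤ N :=
    ⟨⌈3 * 2048 * (m':ℝ)^2 / c^3⌉₊ + 1, Nat.succ_pos _,
      (Nat.le_ceil _).trans (by push_cast; linarith)⟩
  obtain ⟨Q, hQ⟩ : ∃ Q : ℕ, Q = m' + 2 := ⟨_, rfl⟩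
  obtain ⟨R, hRpos, hRR⟩ : ∃ R : ℕ, 0 < R ∧ 4 * (m':ℝ) * (Q:ℝ)^N / c ≤ R :=
    ⟨⌈4 * (m':ℝ) * (Q:ℝ)^N / c⌉₊ + 1, Nat.succ_pos _,
      (Nat.le_ceil _).trans (by push_cast; linarith)⟩
  obtain ⟨n, hn⟩ : ∃ n : ℕ, n = R * N := ⟨_, rfl⟩
  have hnpos : 0 < n := hn ▸ Nat.mul_pos hRpos hNpos
  have hlt : c * n < pot 1 n (0 : X) :=
    lt_of_le_of_lt (mul_le_mul_of_nonneg_right (min_le_left _ _) (Nat.cast_nonneg _))
      (hflat n hnpos)
  obtain ⟨d, hd, hd0⟩ := exists_tree n (0 : X) _ hlt
  simp only [zero_add] at hd0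
  choose φ hφ hφS using fun ω => exists_dual_vector'' ℝ (∑ i : Fin n, inc d i ω)
  let hfun : ℕ → (Fin n → Bool) → ℝ := fun p ω => φ ω (blk d N (p * N) ω)
  have hh1 : ∀ p ω, |hfun p ω| ≤ 1 := fun p ω => abs_app_le hd hφ _ _ _
  have hzero : ∀ p, R ≤ p → ∀ ω, hfun p ω = 0 := by
    intro p hp ω
    have : blk d N (p * N) ω = 0 := by
      simp only [blk]
      rw [sum_eq_zero, smul_zero]
      intro i _
      have : n ≤ p * N + i := le_add_right (hn.le.trans (Nat.mul_le_mul_right N hp))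
      simp [inc, Nat.not_lt.mpr this]
    simp [hfun, this]
  -- the mean of the blocks
  have hblocks : ∀ (r : ℕ) ω, ∑ p ∈ range r, φ ω (blk d N (p * N) ω)
      = (N:ℝ)⁻¹ * φ ω (∑ i ∈ range (r * N), inc d i ω) := by
    intro r ω
    induction r with
    | zero => simp
    | succ r ih =>
      rw [sum_range_succ, ih, Nat.succ_mul, sum_range_add, map_add, mul_add]
      simp [blk]
  have hmean : c * R ≤ avg (fun ω => ∑ p ∈ range R, hfun p ω) := by
    have e : (fun ω => ∑ p ∈ range R, hfun p ω)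
        = fun ω => (N:ℝ)⁻¹ * ‖∑ i : Fin n, inc d i ω‖ := by
      funext ω
      rw [show ∑ p ∈ range R, hfun p ω = _ from hblocks R ω, ← hn,
        ← Fin.sum_univ_eq_sum_range (fun i => inc d i ω), hφS]
      simp
    rw [e, avg_mul, le_inv_mul_iff₀ (by exact_mod_cast hNpos)]
    refine le_trans (le_of_eq ?_) hd0.le
    rw [hn]; push_cast; ring
  -- pigeonhole over levels
  let chk : ℕ → ℕ → ℕ := fun i p => p * N + N * Q ^ i
  let e : ℕ → ℕ → ℝ := fun i p => en (hfun p) (chk (i+1) p) - en (hfun p) (chk i p)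
  have hchk : ∀ i p, chk i p ≤ chk (i+1) p := fun i p =>
    Nat.add_le_add_left (Nat.mul_le_mul_left N (Nat.pow_le_pow_right (by omega) (Nat.le_succ i))) _
  have he0 : ∀ i p, 0 ≤ e i p := fun i p => sub_nonneg.mpr (en_mono _ (hchk i p))
  have hetot : ∑ i ∈ range N, ∑ p ∈ range (2 * R), e i p ≤ 2 * R := by
    rw [sum_comm]
    refine (sum_le_sum (g := fun _ => (1:ℝ)) fun p _ => ?_).trans (by simp)
    show ∑ i ∈ range N, (en (hfun p) (chk (i+1) p) - en (hfun p) (chk i p)) ≤ 1
    rw [sum_range_sub (fun i => en (hfun p) (chk i p))]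
    linarith [en_le_one (hh1 p) (chk N p), en_nonneg (hfun p) (chk 0 p)]
  obtain ⟨lev, hlev, hlevb⟩ := exists_le_of_sum_le (nonempty_range_iff.mpr hNpos.ne')
    (g := fun _ => (2 * R : ℝ) / N) (f := fun i => ∑ p ∈ range (2*R), e i p) (by
      refine hetot.trans (le_of_eq ?_)
      rw [sum_const, card_range, nsmul_eq_mul]
      field_simp)
  rw [mem_range] at hlev
  set s : ℕ := Q ^ lev with hs
  have hspos : 0 < s := Nat.pow_pos (by omega)
  have hsN : (m':ℝ) * s ≤ c * R / 4 := by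
    rw [div_le_iff₀ hc] at hRR
    have : (s:ℝ) ≤ (Q:ℝ)^N := by
      exact_mod_cast Nat.pow_le_pow_right (n := Q) (by omega) hlev.le
    nlinarith [mul_le_mul_of_nonneg_left this (Nat.cast_nonneg (α := ℝ) m')]
  have hms : m' * s ≤ R := by
    have : ((m' * s : ℕ) : ℝ) ≤ R := by
      push_cast; nlinarith [Nat.cast_nonneg (α := ℝ) R]
    exact_mod_cast this
  let pos : ℕ → ℕ → ℕ := fun o l => o + l * s
  let V : ℕ → ℕ → (Fin n → Bool) → ℝ := fun o l =>
    cexp (chk (lev+1) (pos o l)) (hfun (pos o l))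
  have hV1 : ∀ o l ω, V o l ω ≤ 1 := fun o l ω => (abs_le.mp (abs_cond_le (hh1 _) _ ω)).2
  let good : ℕ → (Fin n → Bool) → Finset (Fin m') := fun o ω =>
    univ.filter fun l => c / 2 ≤ V o l ω
  let x : ℕ → (Fin n → Bool) → Fin m' → X := fun o ω l => blk d N (pos o l * N) ω
  let tst : ℕ → (Fin n → Bool) → Fin m' → (X →L[ℝ] ℝ) := fun o ω k =>
    psi φ (pos o (k + 1) * N) ω
  let err : ℕ → (Fin n → Bool) → Fin m' → Fin m' → ℝ := fun o ω l k =>
    if l ≤ k then tst o ω k (x o ω l) - V o l ω else tst o ω k (x o ω l)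
  let B : ℕ → (Fin n → Bool) → ℝ := fun o ω => ∑ l : Fin m', ∑ k : Fin m', err o ω l k ^ 2
  -- goodness has large mean
  have hG : c * R * m' / 4 ≤ ∑ o ∈ range R, avg (fun ω => ((good o ω).card : ℝ)) := by
    have h1 : ∀ o ω, ∑ l : Fin m', V o l ω - c / 2 * m' ≤ ((good o ω).card : ℝ) := by
      intro o ω
      have : ∀ l : Fin m', V o l ω ≤ c / 2 + (if c / 2 ≤ V o l ω then (1:ℝ) else 0) := by
        intro l; split_ifs with hl
        · linarith [hV1 o l ω]
        · linarith
      refine sub_le_iff_le_add.mpr ((sum_le_sum fun l _ => this l).trans ?_)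
      rw [sum_add_distrib, sum_boole]
      simp only [good, sum_const, card_univ, Fintype.card_fin, nsmul_eq_mul]
      linarith
    have h2 : ∀ l : Fin m', (3/4 : ℝ) * c * R ≤ ∑ o ∈ range R, avg (hfun (pos o l)) := by
      intro l
      rw [sum_windows (fun p => avg (hfun p)) ((l:ℕ) * s) R,
        sum_range_add (fun p => avg (hfun p)) R ((l:ℕ) * s)]
      have z : ∑ i ∈ range ((l:ℕ) * s), avg (hfun (R + i)) = 0 :=
        sum_eq_zero fun i _ => by simp [avg, hzero (R + i) (Nat.le_add_right _ _)]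
      have up : ∑ p ∈ range ((l:ℕ) * s), avg (hfun p) ≤ ((l:ℕ) * s : ℕ) := by
        refine (sum_le_sum (g := fun _ => (1:ℝ)) fun p _ => ?_).trans (by simp)
        exact (avg_mono fun ω => (abs_le.mp (hh1 p ω)).2).trans (avg_const 1).le
      have hl : (((l:ℕ) * s : ℕ) : ℝ) ≤ c * R / 4 := by
        refine le_trans ?_ hsN
        exact_mod_cast Nat.mul_le_mul_right s l.isLt.le
      rw [avg_sum] at hmean
      linarith
    calc c * R * m' / 4 = ∑ l : Fin m', ((3/4 : ℝ) * c * R) - R * (c / 2 * m') := by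
          simp; ring
      _ ≤ ∑ l : Fin m', ∑ o ∈ range R, avg (hfun (pos o l)) - R * (c / 2 * m') := by
          linarith [sum_le_sum (s := univ) fun (l : Fin m') _ => h2 l]
      _ = ∑ o ∈ range R, avg (fun ω => ∑ l : Fin m', V o l ω - c / 2 * m') := by
          simp only [avg_sub, avg_sum, avg_const, V, avg_cond, sum_sub_distrib, sum_const,
            card_range, nsmul_eq_mul]
          rw [sum_comm]
      _ ≤ _ := sum_le_sum fun o _ => avg_mono (h1 o)
  -- errors have small mean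
  have hBm : ∑ o ∈ range R, avg (B o) ≤ (m':ℝ)^2 * R * (3 / N) := by
    have h1 : ∀ o (l k : Fin m'),
        avg (fun ω => err o ω l k ^ 2) ≤ e lev (pos o l) + 1 / N := by
      intro o l k
      have h0 := he0 lev (pos o l)
      have hNp : (0:ℝ) ≤ 1 / N := by positivity
      by_cases hlk : l ≤ k
      · have hlk' : (l:ℕ) ≤ k := hlk
        have lo : chk lev (pos o l) ≤ pos o ((k:ℕ) + 1) * N := by
          simp only [chk, pos, ← hs]
          calc (o + (l:ℕ) * s) * N + N * s = (o + ((l:ℕ) + 1) * s) * N := by ring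
            _ ≤ _ := by gcongr
        have hi : pos o ((k:ℕ) + 1) * N ≤ chk (lev+1) (pos o l) := by
          simp only [chk, pos, pow_succ, ← hs]
          calc (o + ((k:ℕ) + 1) * s) * N ≤ (o + ((l:ℕ) + Q) * s) * N := by
                exact Nat.mul_le_mul_right N (Nat.add_le_add_left
                  (Nat.mul_le_mul_right s (by have := k.isLt; omega)) o)
            _ = _ := by ring
        have hfin : pos o l * N + N ≤ pos o ((k:ℕ) + 1) * N :=
          le_trans (Nat.add_le_add_left (Nat.le_mul_of_pos_right N hspos) _) lo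
        have eq : (fun ω => err o ω l k ^ 2) = fun ω =>
            (cexp (chk (lev+1) (pos o l)) (hfun (pos o l)) ω
              - cexp (pos o ((k:ℕ) + 1) * N) (hfun (pos o l)) ω) ^ 2 := by
          funext ω
          simp only [err, if_pos hlk, tst, x, psi_past hd hfin, V]
          ring
        rw [eq, cond_diff hi]
        have := en_mono (hfun (pos o l)) lo
        show _ ≤ en _ _ - en _ _ + _
        linarith
      · have hkl : (k:ℕ) + 1 ≤ l := by
          have : k < l := lt_of_not_ge hlk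
          exact this
        have eq : (fun ω => err o ω l k ^ 2) = fun ω =>
            psi φ (pos o ((k:ℕ) + 1) * N) ω (blk d N (pos o l * N) ω) ^ 2 := by
          funext ω; simp only [err, if_neg hlk, tst, x]
        rw [eq]
        have := psi_future hd hφ hNpos (k := pos o ((k:ℕ) + 1) * N) (i₀ := pos o l * N)
          (Nat.mul_le_mul_right N (Nat.add_le_add_left (Nat.mul_le_mul_right s hkl) o))
        linarith
    have h2 : ∀ l : Fin m', ∑ o ∈ range R, e lev (pos o l) ≤ 2 * R / N := by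
      intro l
      refine le_trans ?_ hlevb
      rw [← sum_image (f := e lev) (g := fun o => pos o l) (fun a _ b _ hab => by
        simp only [pos] at hab; omega)]
      refine sum_le_sum_of_subset_of_nonneg ?_ (fun p _ _ => he0 _ _)
      intro p hp
      simp only [mem_image, mem_range, pos] at hp ⊢
      obtain ⟨o, ho, rfl⟩ := hp
      have : (l:ℕ) * s ≤ R := (Nat.mul_le_mul_right s l.isLt.le).trans hms
      omega
    simp only [B, avg_sum]
    rw [sum_comm]
    refine (sum_le_sum (g := fun _ => (m':ℝ) * (R * (3 / N))) fun l _ => ?_).trans_eq ?_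
    · rw [sum_comm]
      refine (sum_le_sum (g := fun _ => R * (3 / (N:ℝ))) fun k _ => ?_).trans_eq (by simp)
      refine (sum_le_sum fun o _ => h1 o l k).trans ?_
      rw [sum_add_distrib, sum_const, card_range, nsmul_eq_mul]
      calc _ ≤ 2 * (R:ℝ) / N + R * (1 / N) := add_le_add (h2 l) le_rfl
        _ = _ := by ring
    · simp; ring
  -- one good choice
  set lam : ℝ := 256 * m' / c^2 with hlam
  have hlam0 : 0 < lam := by positivity
  obtain ⟨⟨o, ω⟩, -, hbest⟩ := exists_le_of_sum_le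
    (s := (range R) ×ˢ (univ : Finset (Fin n → Bool)))
    ((nonempty_range_iff.mpr hRpos.ne').product univ_nonempty)
    (f := fun _ => c * m' / 8) (g := fun q => ((good q.1 q.2).card : ℝ) - lam * B q.1 q.2) (by
      have h3 : lam * ((m':ℝ)^2 * R * (3 / N)) ≤ c * R * m' / 8 := by
        rw [div_le_iff₀ (by positivity)] at hNR
        have hNc : (0:ℝ) < N := by exact_mod_cast hNpos
        rw [hlam]
        field_simp
        nlinarith [mul_le_mul_of_nonneg_left hNR (show (0:ℝ) ≤ m' * R by positivity)]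
      have h4 := mul_le_mul_of_nonneg_left hBm hlam0.le
      have h5 : c * R * m' / 8
          ≤ ∑ o ∈ range R, avg (fun ω => ((good o ω).card : ℝ) - lam * B o ω) := by
        refine le_trans ?_ (sum_le_sum fun o _ =>
          (avg_sub (fun ω => ((good o ω).card : ℝ)) (fun ω => lam * B o ω)).ge)
        rw [sum_sub_distrib, sum_congr rfl (fun o _ => avg_mul lam (B o)), ← mul_sum]
        linarith
      simp only [avg, ← sum_div] at h5
      rw [le_div_iff₀ (by positivity)] at h5
      rw [sum_product, sum_product]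
      refine le_trans (le_of_eq ?_) h5
      simp; ring)
  simp only at hbest
  have hB0 : 0 ≤ B o ω := sum_nonneg fun _ _ => sum_nonneg fun _ _ => sq_nonneg _
  have hcard_le : ((good o ω).card : ℝ) ≤ m' := by
    exact_mod_cast (card_le_univ _).trans (le_of_eq (Fintype.card_fin m'))
  have hmR : (m:ℝ) ≤ c * m' / 8 := by
    rw [div_le_iff₀ hc] at hm'R; linarith
  have hcard : m ≤ (good o ω).card := by
    have : (m:ℝ) ≤ (good o ω).card := by nlinarith
    exact_mod_cast this
  have herr : ∀ l k, |err o ω l k| ≤ c / 16 := by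
    intro l k
    apply abs_le_of_sq_le_sq _ (by positivity)
    have h1 : err o ω l k ^ 2 ≤ B o ω :=
      le_trans (single_le_sum (f := fun k => err o ω l k ^ 2) (fun _ _ => sq_nonneg _) (mem_univ k))
        (single_le_sum (f := fun l => ∑ k : Fin m', err o ω l k ^ 2)
          (fun _ _ => sum_nonneg fun _ _ => sq_nonneg _) (mem_univ l))
    have h2 : lam * B o ω ≤ m' := by
      have : 0 ≤ c * m' / 8 := by positivity
      linarith
    refine h1.trans ?_
    rw [hlam, div_mul_eq_mul_div, div_le_iff₀ (by positivity)] at h2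
    have hm0 : (0:ℝ) < m' := by exact_mod_cast hm'pos
    nlinarith
  let sel : Fin m ↪o Fin m' := (Fin.castLEOrderEmb hcard).trans ((good o ω).orderEmbOfFin rfl)
  have hsel : ∀ i, c / 2 ≤ V o (sel i) ω := fun i =>
    (mem_filter.mp ((good o ω).orderEmbOfFin_mem rfl _)).2
  refine ⟨fun i => x o ω (sel i), fun i => tst o ω (sel i), fun i => norm_blk_le hd _ _ _,
    fun i => norm_psi_le hφ _ _, ?_, ?_⟩
  · intro j k hjk
    have h1 := (abs_le.mp (herr (sel j) (sel k))).1
    simp only [err, if_pos (sel.monotone hjk)] at h1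
    linarith [hsel j]
  · intro j k hkj
    have h1 := herr (sel j) (sel k)
    simp only [err, if_neg (not_le.mpr (sel.strictMono hkj))] at h1
    linarith

end Vale.Agent.P125.Pos
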