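import Vale.Agent.P125.Pos.Renorm
import Vale.Agent.P125.Pos.Stair
import Vale.Agent.P125.Pos.NoStairs

/-! Markov type above one forces a uniformly smooth renorming. -/

namespace Vale.Agent.P125.Pos

universe u

variable {X : Type u} [NormedAddCommGroup X] [NormedSpace ℝ X]

theorem renorm_of_markovType {p : ℝ} (hp : 1 < p) (h : MarkovType X p) :
    UniformlySmoothRenorm X := by
  refine renorm_of_not_flat fun hf => ?_
  obtain ⟨θ, hθ, -, hs⟩ := stairs_of_flat hf
  exact no_stairs_of_markovType hp h hθ hs

end Vale.Agent.P125.Pos
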