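import Mathlib

/-! Alternating block patterns along a sequence. -/

namespace Vale.Agent.P125.Pos

open Finset

universe u

variable {X : Type u} [NormedAddCommGroup X] [NormedSpace ℝ X]

/-- the `k`-th cluster: mean of its `τ` starts minus mean of its `τ` ends -/
noncomputable def clus (y : ℕ → X) (τ : ℕ) (q : ℕ → ℕ) (k : ℕ) : X :=
  (τ : ℝ)⁻¹ • ∑ i ∈ range τ, (y (q (2 * k * τ + i)) - y (q ((2 * k + 1) * τ + i)))

/-- sum of the first `l` clusters -/
noncomputable def pat (y : ℕ → X) (τ l : ℕ) (q : ℕ → ℕ) : X := ∑ k ∈ range l, clus y τ q k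

/-- coefficients of `pat` -/
noncomputable def patCoef (τ i : ℕ) : ℝ := if i / τ % 2 = 0 then (τ : ℝ)⁻¹ else -(τ : ℝ)⁻¹

lemma sum_range_mul {M : Type*} [AddCommMonoid M] (a b : ℕ) (f : ℕ → M) :
    ∑ i ∈ range (a * b), f i = ∑ x ∈ range a, ∑ i ∈ range b, f (x * b + i) := by
  induction a with
  | zero => simp
  | succ a ih => rw [sum_range_succ, ← ih, Nat.succ_mul, sum_range_add]

lemma block_div {τ i : ℕ} (x : ℕ) (hi : i < τ) : (x * τ + i) / τ = x := by
  rw [mul_comm, Nat.mul_add_div (by omega), Nat.div_eq_of_lt hi, add_zero]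

lemma block_mod {τ i : ℕ} (x : ℕ) (hi : i < τ) : (x * τ + i) % τ = i := by
  rw [mul_comm, Nat.mul_add_mod, Nat.mod_eq_of_lt hi]

lemma pat_eq_sum (y : ℕ → X) (τ l : ℕ) (q : ℕ → ℕ) :
    pat y τ l q = ∑ i : Fin (2 * l * τ), patCoef τ i • y (q i) := by
  rw [Fin.sum_univ_eq_sum_range (fun i => patCoef τ i • y (q i)),
    show 2 * l * τ = l * (2 * τ) by ring, sum_range_mul]
  refine sum_congr rfl fun k _ => ?_
  rw [clus, smul_sum, show 2 * τ = τ + τ by ring, sum_range_add, ← sum_add_distrib]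
  refine sum_congr rfl fun i hi => ?_
  have hi' := mem_range.mp hi
  have e0 : k * (τ + τ) + i = 2 * k * τ + i := by ring
  have e1 : k * (τ + τ) + (τ + i) = (2 * k + 1) * τ + i := by ring
  simp only [e0, e1, patCoef, block_div _ hi']
  simp [smul_sub, sub_eq_add_neg, Nat.mul_mod_right, show (2 * k + 1) % 2 = 1 by omega]

lemma norm_clus_le (y : ℕ → X) (hy : ∀ i, ‖y i‖ ≤ 1) (τ : ℕ) (q : ℕ → ℕ) (k : ℕ) :
    ‖clus y τ q k‖ ≤ 2 := by
  rcases Nat.eq_zero_or_pos τ with h | h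
  · simp [clus, h]
  rw [clus, norm_smul, Real.norm_of_nonneg (by positivity), inv_mul_le_iff₀ (by exact_mod_cast h)]
  refine (norm_sum_le _ _).trans ?_
  refine (sum_le_sum fun i _ => (norm_sub_le _ _).trans (add_le_add (hy _) (hy _))).trans ?_
  simp; linarith

lemma norm_pat_le (y : ℕ → X) (hy : ∀ i, ‖y i‖ ≤ 1) (τ l : ℕ) (q : ℕ → ℕ) :
    ‖pat y τ l q‖ ≤ 2 * l := by
  refine (norm_sum_le _ _).trans ((sum_le_sum fun k _ => norm_clus_le y hy τ q k).trans ?_)
  simp; linarith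

lemma pat_drop (y : ℕ → X) (hy : ∀ i, ‖y i‖ ≤ 1) (τ : ℕ) (q : ℕ → ℕ) {a b : ℕ} (h : a ≤ b) :
    ‖pat y τ b q‖ ≤ ‖pat y τ a q‖ + 2 * ((b : ℝ) - a) := by
  rw [pat, ← sum_range_add_sum_Ico _ h]
  refine (norm_add_le _ _).trans (add_le_add le_rfl ((norm_sum_le _ _).trans
    ((sum_le_sum fun k _ => norm_clus_le y hy τ q k).trans ?_)))
  simp [Nat.cast_sub h]; linarith

/-- refining selection -/
def subBlock (τ T s i : ℕ) : ℕ := i / τ * (T * τ) + s * τ + i % τ

lemma subBlock_strictMono (τ T s : ℕ) (hτ : 0 < τ) (hs : s < T) :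
    StrictMono (subBlock τ T s) := by
  intro i j hij
  rcases eq_or_lt_of_le (Nat.div_le_div_right (c := τ) hij.le) with h | h
  · have h1 := Nat.div_add_mod i τ; have h2 := Nat.div_add_mod j τ
    simp only [subBlock, h]; rw [h] at h1; omega
  · have h1 : (i / τ + 1) * (T * τ) ≤ j / τ * (T * τ) := Nat.mul_le_mul_right _ h
    have h2 : (s + 1) * τ ≤ T * τ := Nat.mul_le_mul_right _ hs
    have h3 := Nat.mod_lt i hτ
    simp only [subBlock]; rw [add_mul, one_mul] at h1 h2; omega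

lemma subBlock_lt (τ T s N : ℕ) (hτ : 0 < τ) (hs : s < T) {i : ℕ} (hi : i < N * τ) :
    subBlock τ T s i < N * (T * τ) := by
  have h : i / τ < N := (Nat.div_lt_iff_lt_mul hτ).mpr hi
  have h1 : (i / τ + 1) * (T * τ) ≤ N * (T * τ) := Nat.mul_le_mul_right _ h
  have h2 : (s + 1) * τ ≤ T * τ := Nat.mul_le_mul_right _ hs
  have h3 := Nat.mod_lt i hτ
  simp only [subBlock]; rw [add_mul, one_mul] at h1 h2; omega

lemma pat_refine (y : ℕ → X) (τ T l : ℕ) (q : ℕ → ℕ) :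
    pat y (T * τ) l q = (T : ℝ)⁻¹ • ∑ s ∈ range T, pat y τ l (fun i => q (subBlock τ T s i)) := by
  simp only [pat]
  rw [sum_comm, smul_sum]
  refine sum_congr rfl fun k _ => ?_
  simp only [clus, ← smul_sum]
  rw [smul_smul, sum_range_mul, Nat.cast_mul, mul_inv]
  congr 1
  refine sum_congr rfl fun s _ => sum_congr rfl fun i hi => ?_
  have hi' := mem_range.mp hi
  simp [subBlock, block_div _ hi', block_mod _ hi', add_assoc]

lemma pat_refine_le (y : ℕ → X) (τ T l : ℕ) (hT : 0 < T) (q : ℕ → ℕ) (B : ℝ)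
    (hB : ∀ s < T, ‖pat y τ l (fun i => q (subBlock τ T s i))‖ ≤ B) :
    ‖pat y (T * τ) l q‖ ≤ B := by
  rw [pat_refine, norm_smul, Real.norm_of_nonneg (by positivity),
    inv_mul_le_iff₀ (by exact_mod_cast hT)]
  refine (norm_sum_le _ _).trans ((sum_le_sum fun s hs => hB s (mem_range.mp hs)).trans ?_)
  simp

end Vale.Agent.P125.Pos
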