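import Mathlib

/-! The bounded increment martingale potential and the notion of staircases. -/

namespace Vale.Agent.P125.Pos

universe u

variable {X : Type u} [NormedAddCommGroup X] [NormedSpace ℝ X]

/-- Largest expected norm at time `n` of a dyadic martingale from `x` with increments at most `r`. -/
noncomputable def pot (r : ℝ) : ℕ → X → ℝ
  | 0, x => ‖x‖
  | n + 1, x => ⨆ d : {d : X // ‖d‖ ≤ r}, (pot r n (x + d.1) + pot r n (x - d.1)) / 2

variable (X)

/-- Martingales with unit increments can grow linearly. -/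
def Flat : Prop := ∃ c : ℝ, 0 < c ∧ ∀ n : ℕ, 1 ≤ n → c * (n : ℝ) < pot 1 n (0 : X)

/-- Finite separated staircases of every length. -/
def HasStairs (θ : ℝ) : Prop :=
  ∀ m : ℕ, ∃ (x : Fin m → X) (φ : Fin m → (X →L[ℝ] ℝ)),
    (∀ i, ‖x i‖ ≤ 1) ∧ (∀ i, ‖φ i‖ ≤ 1) ∧
    (∀ j k, j ≤ k → θ ≤ φ k (x j)) ∧ (∀ j k, k < j → |φ k (x j)| ≤ θ / 4)

end Vale.Agent.P125.Pos
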