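import Vale.Agent.P125.Pos.Defs
import Vale.Agent.P125.Pos.Pot

/-! Spaces without flat martingales have a uniformly smooth norm. -/

namespace Vale.Agent.P125.Pos

universe u

variable {X : Type u} [NormedAddCommGroup X] [NormedSpace ℝ X]

namespace Ren

open Finset Pointwise

section potential

variable {r : ℝ}

omit [NormedSpace ℝ X] in
lemma pot_le (hr : 0 ≤ r) : ∀ (n : ℕ) (x : X), pot r n x ≤ ‖x‖ + n * r := by
  intro n
  induction n with
  | zero => intro x; simp [pot]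
  | succ n ih =>
    intro x
    have : Nonempty {d : X // ‖d‖ ≤ r} := ⟨⟨0, by simpa using hr⟩⟩
    refine ciSup_le fun d => ?_
    push_cast
    linarith [ih (x + d.1), ih (x - d.1), norm_add_le x d.1, norm_sub_le x d.1, d.2]

omit [NormedSpace ℝ X] in
lemma pot_bdd (hr : 0 ≤ r) (n : ℕ) (x : X) :
    BddAbove (Set.range fun d : {d : X // ‖d‖ ≤ r} =>
      (pot r n (x + d.1) + pot r n (x - d.1)) / 2) := by
  refine ⟨‖x‖ + n * r + r, ?_⟩
  rintro _ ⟨d, rfl⟩
  change (pot r n (x + d.1) + pot r n (x - d.1)) / 2 ≤ _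
  linarith [pot_le hr n (x + d.1), pot_le hr n (x - d.1), norm_add_le x d.1, norm_sub_le x d.1, d.2]

omit [NormedSpace ℝ X] in
lemma pot_two_point (hr : 0 ≤ r) (n : ℕ) (x h : X) (hh : ‖h‖ ≤ r) :
    pot r n (x + h) + pot r n (x - h) ≤ 2 * pot r (n + 1) x := by
  have := le_ciSup (pot_bdd hr n x) (⟨h, hh⟩ : {d : X // ‖d‖ ≤ r})
  change _ ≤ pot r (n + 1) x at this
  simp only at this
  linarith

lemma norm_le_pot (hr : 0 ≤ r) : ∀ (n : ℕ) (x : X), ‖x‖ ≤ pot r n x := by
  intro n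
  induction n with
  | zero => intro x; simp [pot]
  | succ n ih =>
    intro x
    have := pot_two_point hr n x 0 (by simpa using hr)
    simp only [add_zero, sub_zero] at this
    linarith [ih x]

omit [NormedSpace ℝ X] in
lemma pot_neg : ∀ (n : ℕ) (x : X), pot r n (-x) = pot r n x := by
  intro n
  induction n with
  | zero => intro x; simp [pot]
  | succ n ih =>
    intro x
    simp only [pot]
    refine congrArg iSup (funext fun d => ?_)
    rw [show -x + d.1 = -(x - d.1) by abel, show -x - d.1 = -(x + d.1) by abel, ih, ih, add_comm]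

lemma pot_convex (hr : 0 ≤ r) : ∀ (n : ℕ) (x y : X) (a b : ℝ), 0 ≤ a → 0 ≤ b → a + b = 1 →
    pot r n (a • x + b • y) ≤ a * pot r n x + b * pot r n y := by
  intro n
  induction n with
  | zero =>
    intro x y a b ha hb _
    simp only [pot]
    refine (norm_add_le _ _).trans_eq ?_
    rw [norm_smul, norm_smul, Real.norm_of_nonneg ha, Real.norm_of_nonneg hb]
  | succ n ih =>
    intro x y a b ha hb hab
    have : Nonempty {d : X // ‖d‖ ≤ r} := ⟨⟨0, by simpa using hr⟩⟩
    refine ciSup_le fun d => ?_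
    have hd : a • d.1 + b • d.1 = d.1 := by rw [← add_smul, hab, one_smul]
    have h1 := ih (x + d.1) (y + d.1) a b ha hb hab
    have h2 := ih (x - d.1) (y - d.1) a b ha hb hab
    rw [show a • (x + d.1) + b • (y + d.1) = a • x + b • y + d.1 by
      rw [smul_add, smul_add, add_add_add_comm, hd]] at h1
    rw [show a • (x - d.1) + b • (y - d.1) = a • x + b • y - d.1 by
      rw [smul_sub, smul_sub, sub_add_sub_comm, hd]] at h2
    have h3 := mul_le_mul_of_nonneg_left (pot_two_point hr n x d.1 d.2) ha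
    have h4 := mul_le_mul_of_nonneg_left (pot_two_point hr n y d.1 d.2) hb
    linarith

lemma pot_lip (hr : 0 ≤ r) : ∀ (n : ℕ) (x y : X), pot r n x ≤ pot r n y + ‖x - y‖ := by
  intro n
  induction n with
  | zero =>
    intro x y
    simp only [pot]
    linarith [norm_sub_norm_le x y]
  | succ n ih =>
    intro x y
    have : Nonempty {d : X // ‖d‖ ≤ r} := ⟨⟨0, by simpa using hr⟩⟩
    refine ciSup_le fun d => ?_
    have h1 := ih (x + d.1) (y + d.1)
    have h2 := ih (x - d.1) (y - d.1)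
    rw [add_sub_add_right_eq_sub] at h1
    rw [sub_sub_sub_cancel_right] at h2
    linarith [pot_two_point hr n y d.1 d.2]

lemma pot_scale (hr : 0 < r) : ∀ (n : ℕ) (x : X), pot r n (r • x) ≤ r * pot 1 n x := by
  intro n
  induction n with
  | zero => intro x; simp [pot, norm_smul, abs_of_pos hr]
  | succ n ih =>
    intro x
    have : Nonempty {d : X // ‖d‖ ≤ r} := ⟨⟨0, by simpa using hr.le⟩⟩
    refine ciSup_le fun d => ?_
    have hd : ‖r⁻¹ • d.1‖ ≤ 1 := by
      rw [norm_smul, Real.norm_of_nonneg (inv_nonneg.2 hr.le)]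
      calc r⁻¹ * ‖d.1‖ ≤ r⁻¹ * r := mul_le_mul_of_nonneg_left d.2 (inv_nonneg.2 hr.le)
        _ = 1 := inv_mul_cancel₀ hr.ne'
    have h1 := ih (x + r⁻¹ • d.1)
    have h2 := ih (x - r⁻¹ • d.1)
    rw [smul_add, smul_inv_smul₀ hr.ne'] at h1
    rw [smul_sub, smul_inv_smul₀ hr.ne'] at h2
    have := mul_le_mul_of_nonneg_left (pot_two_point (zero_le_one) n x (r⁻¹ • d.1) hd) hr.le
    linarith

end potential

section scale

/-- Average of the potentials below `n` at increment `1 / (4 * n)`. -/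
noncomputable def avgPot (n : ℕ) (x : X) : ℝ :=
  (n : ℝ)⁻¹ * ∑ k ∈ range n, pot (4 * (n : ℝ))⁻¹ k x

variable {n : ℕ}

lemma avgPot_ge (hn : 1 ≤ n) (x : X) : ‖x‖ ≤ avgPot n x := by
  have hn' : (0 : ℝ) < n := by exact_mod_cast hn
  rw [avgPot, le_inv_mul_iff₀ hn']
  refine le_of_eq_of_le ?_ (sum_le_sum fun k _ => norm_le_pot (by positivity) k x)
  simp

omit [NormedSpace ℝ X] in
lemma avgPot_le (hn : 1 ≤ n) (x : X) : avgPot n x ≤ ‖x‖ + 1 / 4 := by
  have hn' : (0 : ℝ) < n := by exact_mod_cast hn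
  rw [avgPot, inv_mul_le_iff₀ hn']
  refine (sum_le_sum fun k hk => ?_).trans_eq (?_ : ∑ _k ∈ range n, (‖x‖ + 1 / 4 : ℝ) = _)
  · refine (pot_le (by positivity) k x).trans ?_
    have : (k : ℝ) ≤ n := by exact_mod_cast (mem_range.1 hk).le
    have h : (k : ℝ) * (4 * (n : ℝ))⁻¹ ≤ 1 / 4 := by
      rw [← div_eq_mul_inv, div_le_iff₀ (by positivity)]; linarith
    linarith
  · simp; ring

omit [NormedSpace ℝ X] in
lemma avgPot_neg (x : X) : avgPot n (-x) = avgPot n x := by simp [avgPot, pot_neg]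

lemma avgPot_convex (x y : X) (a b : ℝ) (ha : 0 ≤ a) (hb : 0 ≤ b) (hab : a + b = 1) :
    avgPot n (a • x + b • y) ≤ a * avgPot n x + b * avgPot n y := by
  simp only [avgPot]
  have h1 : ∑ k ∈ range n, pot (4 * (n : ℝ))⁻¹ k (a • x + b • y)
      ≤ a * ∑ k ∈ range n, pot (4 * (n : ℝ))⁻¹ k x + b * ∑ k ∈ range n, pot (4 * (n : ℝ))⁻¹ k y := by
    simp only [mul_sum, ← sum_add_distrib]
    exact sum_le_sum fun k _ => pot_convex (by positivity) k x y a b ha hb hab
  exact (mul_le_mul_of_nonneg_left h1 (inv_nonneg.2 (Nat.cast_nonneg n))).trans_eq (by ring)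

lemma avgPot_lip (hn : 1 ≤ n) (x y : X) : avgPot n x ≤ avgPot n y + ‖x - y‖ := by
  have hn' : (0 : ℝ) < n := by exact_mod_cast hn
  have h : ∑ k ∈ range n, pot (4 * (n : ℝ))⁻¹ k x
      ≤ ∑ k ∈ range n, (pot (4 * (n : ℝ))⁻¹ k y + ‖x - y‖) :=
    sum_le_sum fun k _ => pot_lip (by positivity) k x y
  rw [sum_add_distrib, sum_const, card_range, nsmul_eq_mul] at h
  refine (mul_le_mul_of_nonneg_left h (inv_nonneg.2 hn'.le)).trans_eq ?_
  rw [mul_add, inv_mul_cancel_left₀ hn'.ne', avgPot]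

lemma avgPot_continuous (hn : 1 ≤ n) : Continuous (avgPot n : X → ℝ) :=
  (LipschitzWith.of_le_add_mul 1 fun x y => by
    simpa [dist_eq_norm] using avgPot_lip hn x y).continuous

lemma avgPot_smooth {ε : ℝ} (hn : 1 ≤ n) (hε : pot 1 n (0 : X) ≤ ε * n) (x h : X)
    (hh : ‖h‖ ≤ (4 * (n : ℝ))⁻¹) :
    avgPot n (x + h) + avgPot n (x - h) ≤ 2 * avgPot n x + 2 * (ε * (4 * (n : ℝ))⁻¹) := by
  have hn' : (0 : ℝ) < n := by exact_mod_cast hn
  set r := (4 * (n : ℝ))⁻¹ with hr
  have hr0 : 0 < r := by positivity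
  have h1 : ∑ k ∈ range n, (pot r k (x + h) + pot r k (x - h))
      ≤ ∑ k ∈ range n, 2 * pot r (k + 1) x :=
    sum_le_sum fun k _ => pot_two_point hr0.le k x h hh
  have h2 := (sum_range_succ (fun k => pot r k x) n).symm.trans
    (sum_range_succ' (fun k => pot r k x) n)
  have h3 : pot r 0 x = ‖x‖ := by simp [pot]
  have h4 : pot r n x ≤ ‖x‖ + r * (ε * n) := by
    have h5 := pot_scale hr0 n (0 : X)
    rw [smul_zero] at h5
    have h6 := pot_lip hr0.le n x 0
    rw [sub_zero] at h6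
    linarith [mul_le_mul_of_nonneg_left hε hr0.le]
  rw [sum_add_distrib, ← mul_sum] at h1
  simp only [avgPot, ← hr]
  refine le_of_mul_le_mul_left ?_ hn'
  simp only [mul_add, mul_inv_cancel_left₀ hn'.ne', mul_left_comm (n : ℝ) 2]
  linarith

lemma sublevel_convex (n : ℕ) : Convex ℝ {x : X | avgPot n x ≤ 1} := by
  intro x hx y hy a b ha hb hab
  refine (avgPot_convex x y a b ha hb hab).trans ?_
  calc a * avgPot n x + b * avgPot n y ≤ a * 1 + b * 1 :=
        add_le_add (mul_le_mul_of_nonneg_left hx ha) (mul_le_mul_of_nonneg_left hy hb)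
    _ = 1 := by linarith

omit [NormedSpace ℝ X] in
lemma gauge_nhds (hn : 1 ≤ n) : Metric.closedBall (0 : X) (3 / 4) ⊆ {x | avgPot n x ≤ 1} :=
  fun x hx => by
    rw [mem_closedBall_zero_iff] at hx
    exact (avgPot_le hn x).trans (by linarith)

lemma sublevel_absorbent (hn : 1 ≤ n) : Absorbent ℝ {x : X | avgPot n x ≤ 1} :=
  absorbent_nhds_zero
    (Filter.mem_of_superset (Metric.closedBall_mem_nhds _ (by norm_num)) (gauge_nhds hn))

/-- The norm whose unit ball is a sublevel set of the averaged potential. -/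
noncomputable def sGauge (n : ℕ) (x : X) : ℝ := gauge {x : X | avgPot n x ≤ 1} x

lemma sGauge_nonneg (x : X) : 0 ≤ sGauge n x := gauge_nonneg x

lemma sGauge_add (hn : 1 ≤ n) (x y : X) : sGauge n (x + y) ≤ sGauge n x + sGauge n y :=
  gauge_add_le (sublevel_convex n) (sublevel_absorbent hn) x y

lemma sGauge_smul {a : ℝ} (ha : 0 ≤ a) (x : X) : sGauge n (a • x) = a * sGauge n x :=
  gauge_smul_of_nonneg ha x

lemma sGauge_neg (x : X) : sGauge n (-x) = sGauge n x :=
  gauge_neg (fun y hy => by simpa [avgPot_neg] using hy) x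

lemma norm_le_sGauge (hn : 1 ≤ n) (x : X) : ‖x‖ ≤ sGauge n x := by
  have := le_gauge_of_subset_closedBall (sublevel_absorbent hn) zero_le_one
    (fun y hy => mem_closedBall_zero_iff.2 ((avgPot_ge hn y).trans hy)) (x := x)
  simpa [sGauge] using this

lemma sGauge_le (hn : 1 ≤ n) (x : X) : sGauge n x ≤ 4 / 3 * ‖x‖ := by
  have := gauge_mono (Absorbent.mono ((absorbent_nhds_zero (Metric.closedBall_mem_nhds _
    (by norm_num : (0 : ℝ) < 3 / 4)))) subset_rfl) (gauge_nhds (X := X) hn) x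
  rw [gauge_closedBall (by norm_num)] at this
  unfold sGauge
  linarith [show ‖x‖ / (3 / 4) = 4 / 3 * ‖x‖ by ring]

lemma avgPot_eq_one (hn : 1 ≤ n) {x : X} (hx : sGauge n x = 1) : avgPot n x = 1 := by
  have hstar : ∀ b : ℝ, 0 < b → b ≤ 1 → avgPot n (0 : X) ≤ 1 :=
    fun _ _ _ => gauge_nhds hn (by norm_num)
  refine le_antisymm ?_ ?_
  · have h : Filter.Tendsto (fun t : ℝ => avgPot n (t⁻¹ • x)) (nhdsWithin 1 (Set.Ioi 1))
        (nhds (avgPot n x)) := by
      have : ContinuousAt (fun t : ℝ => avgPot n (t⁻¹ • x)) 1 :=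
        (avgPot_continuous hn).continuousAt.comp
          ((continuousAt_inv₀ one_ne_zero).smul continuousAt_const)
      simpa using this.tendsto.mono_left nhdsWithin_le_nhds
    refine le_of_tendsto h (eventually_nhdsWithin_of_forall fun t ht => ?_)
    obtain ⟨b, hb, hbt, hxb⟩ := exists_lt_of_gauge_lt (sublevel_absorbent hn)
      (show gauge {x : X | avgPot n x ≤ 1} x < t by
        change sGauge n x < t; rw [hx]; exact ht)
    rw [Set.mem_smul_set_iff_inv_smul_mem₀ hb.ne'] at hxb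
    have htb : 0 < t := lt_trans hb hbt
    have := (sublevel_convex n).smul_mem_of_zero_mem (gauge_nhds hn (by norm_num)) hxb
      (t := b / t) ⟨by positivity, (div_le_one htb).2 hbt.le⟩
    rw [smul_smul, show b / t * b⁻¹ = t⁻¹ by field_simp] at this
    exact this
  · by_contra hlt
    rw [not_le] at hlt
    have hev : ∀ᶠ t in nhds (1 : ℝ), avgPot n (t • x) < 1 := by
      have : ContinuousAt (fun t : ℝ => avgPot n (t • x)) 1 :=
        (avgPot_continuous hn).continuousAt.comp (continuousAt_id.smul continuousAt_const)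
      exact this.eventually_lt_const (by simpa using hlt)
    obtain ⟨t, ht, ht1⟩ := ((hev.filter_mono nhdsWithin_le_nhds).and
      (self_mem_nhdsWithin : Set.Ioi (1 : ℝ) ∈ nhdsWithin 1 (Set.Ioi 1))).exists
    have h := gauge_le_one_of_mem (show t • x ∈ {x : X | avgPot n x ≤ 1} from ht.le)
    change sGauge n (t • x) ≤ 1 at h
    rw [sGauge_smul (zero_le_one.trans (le_of_lt ht1)), hx, mul_one] at h
    exact absurd h (not_le.2 ht1)

lemma sGauge_smooth_unit {ε : ℝ} (hn : 1 ≤ n) (hε : pot 1 n (0 : X) ≤ ε * n) {z h : X}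
    (hz : sGauge n z = 1) (hh : ‖h‖ ≤ (4 * (n : ℝ))⁻¹ / 4) :
    sGauge n (z + h) + sGauge n (z - h) - 2 ≤ 8 * (ε * (4 * (n : ℝ))⁻¹) := by
  have hn' : (1 : ℝ) ≤ n := by exact_mod_cast hn
  set r := (4 * (n : ℝ))⁻¹ with hrdef
  have hr0 : 0 < r := by positivity
  have hr4 : r ≤ 1 / 4 := by
    rw [hrdef, inv_le_comm₀ (by positivity) (by norm_num)]; norm_num; linarith
  have hzn : ‖z‖ ≤ 1 := (norm_le_sGauge hn z).trans_eq hz
  have hsh : sGauge n h ≤ r / 3 := (sGauge_le hn h).trans (by linarith)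
  have side : ∀ k : X, sGauge n k ≤ r / 3 → ‖k‖ ≤ r / 4 →
      (1 - r / 3 ≤ sGauge n (z + k) ∧ sGauge n (z + k) ≤ 1 + r / 3) ∧
      avgPot n ((sGauge n (z + k))⁻¹ • (z + k)) = 1 ∧
      ‖(sGauge n (z + k))⁻¹ • (z + k) - z‖ ≤ r := by
    intro k hk hkn
    have hu := sGauge_add hn z k
    have hl := sGauge_add hn (z + k) (-k)
    rw [sGauge_neg, add_neg_cancel_right, hz] at hl
    rw [hz] at hu
    set a := sGauge n (z + k) with ha
    have ha0 : 0 < a := by linarith
    refine ⟨⟨by linarith, by linarith⟩, avgPot_eq_one hn ?_, ?_⟩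
    · rw [sGauge_smul (inv_nonneg.2 ha0.le), ← ha, inv_mul_cancel₀ ha0.ne']
    · have : a⁻¹ • (z + k) - z = a⁻¹ • (k + (1 - a) • z) := by
        rw [smul_add, smul_add, smul_smul, mul_sub, mul_one, inv_mul_cancel₀ ha0.ne', sub_smul,
          one_smul]
        abel
      rw [this, norm_smul, Real.norm_of_nonneg (inv_nonneg.2 ha0.le), inv_mul_le_iff₀ ha0]
      refine (norm_add_le _ _).trans ?_
      rw [norm_smul, Real.norm_eq_abs]
      have h1 : |1 - a| * ‖z‖ ≤ r / 3 * 1 :=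
        mul_le_mul (abs_le.2 ⟨by linarith, by linarith⟩) hzn (norm_nonneg _) (by linarith)
      have h2 : (1 - r / 3) * r ≤ a * r := mul_le_mul_of_nonneg_right (by linarith) hr0.le
      have h3 : r * r ≤ 1 / 4 * r := mul_le_mul_of_nonneg_right hr4 hr0.le
      linarith
  obtain ⟨⟨hp1, hp2⟩, hgp, hdp⟩ := side h hsh hh
  obtain ⟨⟨hm1, hm2⟩, hgm, hdm⟩ := side (-h) (by rwa [sGauge_neg]) (by rwa [norm_neg])
  rw [← sub_eq_add_neg] at hm1 hm2 hgm hdm
  set ap := sGauge n (z + h)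
  set am := sGauge n (z - h)
  have hap : 0 < ap := by linarith
  have ham : 0 < am := by linarith
  set p := ap⁻¹ • (z + h)
  set q := am⁻¹ • (z - h)
  set m := (1 / 2 : ℝ) • (p + q)
  set δ := (1 / 2 : ℝ) • (p - q)
  have hδ : ‖δ‖ ≤ r := by
    have h1 := norm_sub_le (p - z) (q - z)
    rw [sub_sub_sub_cancel_right] at h1
    simp only [δ, norm_smul, Real.norm_of_nonneg (show (0:ℝ) ≤ 1 / 2 by norm_num)]
    linarith
  have hsm := avgPot_smooth hn hε m δ hδ
  rw [show m + δ = p by simp only [m, δ]; module, show m - δ = q by simp only [m, δ]; module,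
    hgp, hgm] at hsm
  set T := ap + am
  have hT : 0 < T := by positivity
  have hT2 : 2 ≤ T := by
    have := sGauge_add hn (z + h) (z - h)
    rw [show (z + h) + (z - h) = (2 : ℝ) • z by module, sGauge_smul zero_le_two, hz] at this
    linarith
  set M := (ap / T) • p + (am / T) • q with hM
  have hMz : M = (2 / T) • z := by
    simp only [M, p, q, smul_smul]
    rw [show ap / T * ap⁻¹ = 1 / T by field_simp, show am / T * am⁻¹ = 1 / T by field_simp]
    module
  have hsum : ap / T + am / T = 1 := by rw [← add_div, div_self hT.ne']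
  have hmir := avgPot_convex (n := n) p q (am / T) (ap / T) (by positivity) (by positivity)
    (by linarith)
  rw [hgp, hgm, mul_one, mul_one, add_comm (am / T), hsum] at hmir
  have hmid := avgPot_convex (n := n) M ((am / T) • p + (ap / T) • q) (1 / 2) (1 / 2)
    (by norm_num) (by norm_num) (by norm_num)
  rw [show (1 / 2 : ℝ) • M + (1 / 2 : ℝ) • ((am / T) • p + (ap / T) • q)
      = (1 / 2 : ℝ) • ((ap / T + am / T) • p + (ap / T + am / T) • q) by rw [hM]; module,
    hsum, one_smul, one_smul] at hmid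
  have hMle : avgPot n M ≤ 1 - 3 / 4 * (1 - 2 / T) := by
    rw [hMz]
    have h1 := avgPot_convex (n := n) z 0 (2 / T) (1 - 2 / T) (by positivity)
      (by rw [sub_nonneg, div_le_one hT]; exact hT2) (by ring)
    rw [smul_zero, add_zero, avgPot_eq_one hn hz] at h1
    have h0 : avgPot n (0 : X) ≤ 1 / 4 := (avgPot_le hn 0).trans (by simp)
    have hc : 0 ≤ 1 - 2 / T := by rw [sub_nonneg, div_le_one hT]; exact hT2
    linarith [mul_le_mul_of_nonneg_left h0 hc]
  have hkey : 1 - 2 / T ≤ 8 / 3 * (ε * r) := by linarith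
  have hT3 : T ≤ 3 := by linarith
  have heq : T - 2 = T * (1 - 2 / T) := by field_simp
  have hεr : 0 ≤ 8 / 3 * (ε * r) := by
    refine le_trans ?_ hkey; rw [sub_nonneg, div_le_one hT]; exact hT2
  have hfin := mul_le_mul hT3 hkey (by rw [sub_nonneg, div_le_one hT]; exact hT2) (by norm_num)
  linarith

lemma sGauge_smooth {ε : ℝ} (hn : 1 ≤ n) (hε : pot 1 n (0 : X) ≤ ε * n) {x h : X}
    (hh : ‖h‖ ≤ (4 * (n : ℝ))⁻¹ / 4 * sGauge n x) :
    sGauge n (x + h) + sGauge n (x - h) ≤ 2 * sGauge n x + 32 * ε * ‖h‖ := by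
  have hn' : (0 : ℝ) < n := by exact_mod_cast hn
  rcases (norm_nonneg h).eq_or_lt with h0 | hpos
  · have : h = 0 := norm_eq_zero.1 h0.symm
    subst this
    simp only [add_zero, sub_zero, norm_zero, mul_zero]; linarith
  set r := (4 * (n : ℝ))⁻¹
  have hr0 : 0 < r := by positivity
  set s := sGauge n x
  have hs : 0 < s := by
    by_contra hc
    rw [not_lt] at hc
    linarith [mul_nonpos_of_nonneg_of_nonpos (by positivity : (0:ℝ) ≤ r / 4) hc]
  set θ := ‖h‖ / (r / 4 * s) with hθ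
  have hθ0 : 0 < θ := by positivity
  have hθ1 : θ ≤ 1 := (div_le_one (by positivity)).2 hh
  set z := s⁻¹ • x with hzdef
  set k := (θ * s)⁻¹ • h with hkdef
  have hz : sGauge n z = 1 := by
    rw [hzdef, sGauge_smul (inv_nonneg.2 hs.le), inv_mul_cancel₀ hs.ne']
  have hk : ‖k‖ = r / 4 := by
    rw [hkdef, norm_smul, Real.norm_of_nonneg (by positivity), hθ]
    field_simp
  have hu := sGauge_smooth_unit hn hε hz hk.le
  have hx : x = s • z := by rw [hzdef, smul_inv_smul₀ hs.ne']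
  have hh' : h = (θ * s) • k := by rw [hkdef, smul_inv_smul₀ (by positivity)]
  have hb : ∀ j : X, sGauge n (x + (θ * s) • j) ≤ s * (1 - θ) + θ * s * sGauge n (z + j) := by
    intro j
    have := sGauge_add hn ((s * (1 - θ)) • z) ((θ * s) • (z + j))
    rw [show (s * (1 - θ)) • z + (θ * s) • (z + j) = x + (θ * s) • j by rw [hx]; module,
      sGauge_smul (mul_nonneg hs.le (by linarith : 0 ≤ 1 - θ)),
      sGauge_smul (by positivity : 0 ≤ θ * s), hz, mul_one]
      at this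
    exact this
  have h1 := hb k
  have h2 := hb (-k)
  rw [← hh'] at h1
  rw [smul_neg, ← hh', ← sub_eq_add_neg, ← sub_eq_add_neg] at h2
  have h3 := mul_le_mul_of_nonneg_left hu (by positivity : 0 ≤ θ * s)
  have h4 : θ * s * (8 * (ε * r)) = 32 * ε * ‖h‖ := by rw [hθ]; field_simp; ring
  linarith

lemma sGauge_sq_smooth {ε : ℝ} (hn : 1 ≤ n) (hε : pot 1 n (0 : X) ≤ ε * n) (hε0 : 0 ≤ ε)
    (x h : X) :
    sGauge n (x + h) ^ 2 + sGauge n (x - h) ^ 2 - 2 * sGauge n x ^ 2
      ≤ 64 * ε * sGauge n x * ‖h‖ + (4 + 22 * (4 * (n : ℝ))) * ‖h‖ ^ 2 := by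
  have hn' : (0 : ℝ) < n := by exact_mod_cast hn
  set s := sGauge n x
  set a := sGauge n (x + h)
  set b := sGauge n (x - h)
  have hs : 0 ≤ s := sGauge_nonneg x
  have hk := sGauge_le hn h
  have h1 : a ≤ s + sGauge n h := sGauge_add hn x h
  have h2 : b ≤ s + sGauge n h := by
    have := sGauge_add hn x (-h)
    rwa [sGauge_neg, ← sub_eq_add_neg] at this
  have h3 : s ≤ a + sGauge n h := by
    have := sGauge_add hn (x + h) (-h)
    rwa [sGauge_neg, add_neg_cancel_right] at this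
  have h4 : s ≤ b + sGauge n h := by
    have := sGauge_add hn (x - h) h
    rwa [sub_add_cancel] at this
  have hsq : ∀ c : ℝ, c ≤ s + sGauge n h → s ≤ c + sGauge n h →
      (c - s) ^ 2 ≤ 16 / 9 * ‖h‖ ^ 2 := by
    intro c hc1 hc2
    have : |c - s| ≤ 4 / 3 * ‖h‖ := abs_le.2 ⟨by linarith, by linarith⟩
    have := pow_le_pow_left₀ (abs_nonneg _) this 2
    rw [sq_abs] at this
    linarith
  have ha2 := hsq a h1 h3
  have hb2 := hsq b h2 h4
  have hid : a ^ 2 + b ^ 2 - 2 * s ^ 2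
      = 2 * s * (a + b - 2 * s) + ((a - s) ^ 2 + (b - s) ^ 2) := by ring
  have hP : 0 ≤ (n : ℝ) * ‖h‖ ^ 2 := by positivity
  rcases le_or_gt ‖h‖ ((4 * (n : ℝ))⁻¹ / 4 * s) with hc | hc
  · have := mul_le_mul_of_nonneg_left
      (by linarith [sGauge_smooth hn hε hc] : a + b - 2 * s ≤ 32 * ε * ‖h‖)
      (by linarith : 0 ≤ 2 * s)
    linarith [sq_nonneg ‖h‖]
  · have hs' : s ≤ 16 * n * ‖h‖ := by
      rw [div_mul_eq_mul_div, div_lt_iff₀ (by norm_num), inv_mul_lt_iff₀ (by positivity)] at hc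
      linarith
    have h5 : 2 * s * (a + b - 2 * s) ≤ 2 * s * (8 / 3 * ‖h‖) :=
      mul_le_mul_of_nonneg_left (by linarith) (by linarith)
    have h6 : s * ‖h‖ ≤ 16 * n * ‖h‖ * ‖h‖ := mul_le_mul_of_nonneg_right hs' (norm_nonneg _)
    have h7 : 0 ≤ ε * s * ‖h‖ := by positivity
    linarith [sq_nonneg ‖h‖]

end scale

section combine

variable (m : ℕ → ℕ)

/-- Weighted energy of a finite decomposition. -/
noncomputable def energy (l : ℕ) (v : ℕ → X) : ℝ :=
  ∑ j ∈ range l, sGauge (m j) (v j) ^ 2 * 2 ^ (j + 1)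

/-- Points with a decomposition of energy less than one. -/
def ball : Set X :=
  {x | ∃ (l : ℕ) (v : ℕ → X), ∑ j ∈ range l, v j = x ∧ energy m l v < 1}

lemma energy_smul {a : ℝ} (ha : 0 ≤ a) (l : ℕ) (v : ℕ → X) :
    energy m l (fun j => a • v j) = a ^ 2 * energy m l v := by
  simp only [energy, mul_sum, sGauge_smul ha]
  exact sum_congr rfl fun j _ => by ring

lemma energy_nonneg (l : ℕ) (v : ℕ → X) : 0 ≤ energy m l v :=
  sum_nonneg fun _ _ => by positivity

lemma extend_decomp (hm : ∀ j, 1 ≤ m j) (l : ℕ) (v : ℕ → X) (L : ℕ) (hL : l ≤ L) :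
    (∑ j ∈ range L, (if j < l then v j else 0)) = ∑ j ∈ range l, v j ∧
    energy m L (fun j => if j < l then v j else 0) = energy m l v := by
  have h0 : ∀ j, sGauge (m j) (0 : X) = 0 := fun j =>
    le_antisymm ((sGauge_le (hm j) 0).trans (by simp)) (sGauge_nonneg _)
  constructor
  · rw [← sum_subset (range_subset_range.2 hL) (fun j _ hj => if_neg (by simpa using hj))]
    exact sum_congr rfl fun j hj => if_pos (by simpa using hj)
  · simp only [energy]
    rw [← sum_subset (range_subset_range.2 hL) (fun j _ hj => by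
      rw [if_neg (by simpa using hj), h0]; ring)]
    exact sum_congr rfl fun j hj => by rw [if_pos (by simpa using hj)]

lemma ball_convex (hm : ∀ j, 1 ≤ m j) : Convex ℝ (ball m : Set X) := by
  rintro x ⟨l, v, hv, he⟩ y ⟨l', v', hv', he'⟩ a b ha hb hab
  obtain ⟨hv2, he2⟩ := extend_decomp m hm l v (max l l') (le_max_left _ _)
  obtain ⟨hv'2, he'2⟩ := extend_decomp m hm l' v' (max l l') (le_max_right _ _)
  set p := fun j => if j < l then v j else 0
  set q := fun j => if j < l' then v' j else 0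
  refine ⟨max l l', fun j => a • p j + b • q j, ?_, ?_⟩
  · simp only [sum_add_distrib, ← smul_sum, hv2, hv'2, hv, hv']
  · have hle : energy m (max l l') (fun j => a • p j + b • q j)
        ≤ a * energy m (max l l') p + b * energy m (max l l') q := by
      simp only [energy, mul_sum, ← sum_add_distrib]
      refine sum_le_sum fun j _ => ?_
      have h1 := sGauge_add (hm j) (a • p j) (b • q j)
      rw [sGauge_smul ha, sGauge_smul hb] at h1
      have h2 := pow_le_pow_left₀ (sGauge_nonneg _) h1 2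
      have h3 : (a * sGauge (m j) (p j) + b * sGauge (m j) (q j)) ^ 2
          ≤ a * sGauge (m j) (p j) ^ 2 + b * sGauge (m j) (q j) ^ 2 := by
        have hb' : b = 1 - a := by linarith
        have hab' : 0 ≤ a * b * (sGauge (m j) (p j) - sGauge (m j) (q j)) ^ 2 := by positivity
        subst hb'
        linarith
      refine (mul_le_mul_of_nonneg_right (h2.trans h3) (by positivity)).trans_eq ?_
      ring
    rw [he2, he'2] at hle
    refine hle.trans_lt ?_
    rcases eq_or_lt_of_le ha with rfl | ha'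
    · rw [zero_add] at hab; subst hab; simpa using he'
    · calc a * energy m l v + b * energy m l' v' < a * 1 + b * 1 :=
            add_lt_add_of_lt_of_le (mul_lt_mul_of_pos_left he ha')
              (mul_le_mul_of_nonneg_left he'.le hb)
        _ = 1 := by linarith

lemma mem_ball_of_norm (hm : ∀ j, 1 ≤ m j) {x : X} (hx : ‖x‖ < 1 / 2) : x ∈ ball m := by
  refine ⟨1, fun _ => x, by simp, ?_⟩
  simp only [energy, sum_range_one, zero_add, pow_one]
  have h1 : sGauge (m 0) x ≤ 2 / 3 := (sGauge_le (hm 0) x).trans (by linarith)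
  have h2 := pow_le_pow_left₀ (sGauge_nonneg x) h1 2
  linarith

lemma ball_absorbent (hm : ∀ j, 1 ≤ m j) : Absorbent ℝ (ball m : Set X) :=
  absorbent_nhds_zero (Filter.mem_of_superset (Metric.ball_mem_nhds _ (by norm_num : (0:ℝ) < 1 / 2))
    fun _ hx => mem_ball_of_norm m hm (mem_ball_zero_iff.1 hx))

lemma ball_subset (hm : ∀ j, 1 ≤ m j) : (ball m : Set X) ⊆ Metric.closedBall 0 1 := by
  rintro x ⟨l, v, rfl, he⟩
  rw [mem_closedBall_zero_iff]
  refine (norm_sum_le _ _).trans ((sum_le_sum fun j _ => norm_le_sGauge (hm j) (v j)).trans ?_)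
  have hterm : ∀ j ∈ range l, sGauge (m j) (v j)
      ≤ 1 / 2 * (sGauge (m j) (v j) ^ 2 * 2 ^ (j + 1)) + 1 / 2 * ((1 : ℝ) / 2) ^ (j + 1) := by
    intro j _
    have hpq : (2 : ℝ) ^ (j + 1) * ((1 : ℝ) / 2) ^ (j + 1) = 1 := by
      rw [← mul_pow]; norm_num
    have h0 : 0 ≤ ((1 : ℝ) / 2) ^ (j + 1) * (sGauge (m j) (v j) * 2 ^ (j + 1) - 1) ^ 2 := by
      positivity
    have h1 : ((1 : ℝ) / 2) ^ (j + 1) * (sGauge (m j) (v j) * 2 ^ (j + 1) - 1) ^ 2
        = ((2 : ℝ) ^ (j + 1) * ((1 : ℝ) / 2) ^ (j + 1))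
            * (sGauge (m j) (v j) ^ 2 * 2 ^ (j + 1) - 2 * sGauge (m j) (v j))
          + ((1 : ℝ) / 2) ^ (j + 1) := by ring
    rw [hpq, one_mul] at h1
    linarith
  refine (sum_le_sum hterm).trans ?_
  rw [sum_add_distrib, ← mul_sum, ← mul_sum]
  have hgeo : ∑ j ∈ range l, ((1 : ℝ) / 2) ^ (j + 1) ≤ 1 := by
    simp only [pow_succ, ← sum_mul]
    linarith [sum_geometric_two_le l]
  have : energy m l v = ∑ j ∈ range l, sGauge (m j) (v j) ^ 2 * 2 ^ (j + 1) := rfl
  linarith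

/-- The combined norm. -/
noncomputable def norm' (x : X) : ℝ := gauge (ball m : Set X) x

lemma norm'_nonneg (x : X) : 0 ≤ norm' m x := gauge_nonneg x

lemma norm'_sq_le (_hm : ∀ j, 1 ≤ m j) (l : ℕ) (v : ℕ → X) :
    norm' m (∑ j ∈ range l, v j) ^ 2 ≤ energy m l v := by
  have h0 := energy_nonneg m l v
  refine le_of_forall_gt_imp_ge_of_dense fun t ht => ?_
  have hst : 0 < Real.sqrt t := Real.sqrt_pos.2 (h0.trans_lt ht)
  have hmem : (Real.sqrt t)⁻¹ • ∑ j ∈ range l, v j ∈ ball m := by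
    refine ⟨l, fun j => (Real.sqrt t)⁻¹ • v j, by rw [smul_sum], ?_⟩
    rw [energy_smul m (by positivity), inv_pow, Real.sq_sqrt (h0.trans ht.le),
      inv_mul_lt_iff₀ (h0.trans_lt ht), mul_one]
    exact ht
  have : norm' m (∑ j ∈ range l, v j) ≤ Real.sqrt t :=
    gauge_le_of_mem hst.le ((Set.mem_smul_set_iff_inv_smul_mem₀ hst.ne' _ _).2 hmem)
  calc norm' m (∑ j ∈ range l, v j) ^ 2 ≤ Real.sqrt t ^ 2 :=
        pow_le_pow_left₀ (norm'_nonneg m _) this 2
    _ = t := Real.sq_sqrt (h0.trans ht.le)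

lemma exists_decomp (hm : ∀ j, 1 ≤ m j) {x : X} {t : ℝ} (hx : norm' m x < t) (J : ℕ) :
    ∃ (l : ℕ) (v : ℕ → X), J < l ∧ ∑ j ∈ range l, v j = x ∧ energy m l v < t ^ 2 := by
  obtain ⟨b, hb, hbt, hxb⟩ := exists_lt_of_gauge_lt (ball_absorbent m hm) hx
  rw [Set.mem_smul_set_iff_inv_smul_mem₀ hb.ne'] at hxb
  obtain ⟨l, v, hv, he⟩ := hxb
  obtain ⟨hv2, he2⟩ := extend_decomp m hm l v (max l (J + 1)) (le_max_left _ _)
  refine ⟨max l (J + 1), fun j => b • (if j < l then v j else 0), ?_, ?_, ?_⟩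
  · exact lt_of_lt_of_le (Nat.lt_succ_self J) (le_max_right _ _)
  · rw [← smul_sum, hv2, hv, smul_inv_smul₀ hb.ne']
  · rw [energy_smul m hb.le, he2]
    calc b ^ 2 * energy m l v ≤ b ^ 2 * 1 := mul_le_mul_of_nonneg_left he.le (by positivity)
      _ < t ^ 2 := by rw [mul_one]; exact pow_lt_pow_left₀ hbt hb.le two_ne_zero

lemma norm'_smooth (hm : ∀ j, 1 ≤ m j)
    (hε : ∀ j, pot 1 (m j) (0 : X) ≤ (1 / 4 : ℝ) ^ j * (m j)) {ε : ℝ} (hε0 : 0 < ε) :
    ∃ τ₀ : ℝ, 0 < τ₀ ∧ ∀ τ : ℝ, 0 < τ → τ ≤ τ₀ → ∀ x y : X, norm' m x = 1 → ‖y‖ ≤ 1 →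
      (norm' m (x + τ • y) + norm' m (x - τ • y)) / 2 - 1 ≤ ε * τ := by
  obtain ⟨j, hj⟩ := exists_pow_lt_of_lt_one (by positivity : 0 < ε / 256)
    (by norm_num : (1 / 2 : ℝ) < 1)
  set C := (4 + 22 * (4 * (m j : ℝ))) * 2 ^ (j + 1) with hC
  have hCpos : 0 < C := by positivity
  refine ⟨ε / C, by positivity, fun τ hτ hτ0 x y hx hy => ?_⟩
  have hh : ‖τ • y‖ ≤ τ := by
    rw [norm_smul, Real.norm_of_nonneg hτ.le]; exact mul_le_of_le_one_right hτ.le hy
  generalize τ • y = h at hh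
  refine le_of_forall_pos_le_add fun η₁ hη₁ => ?_
  set η := min η₁ 1 with hη
  have hηpos : 0 < η := lt_min hη₁ one_pos
  obtain ⟨l, v, hjl, hv, he⟩ := exists_decomp m hm
    (show norm' m x < Real.sqrt (1 + η) by
      rw [hx, Real.lt_sqrt zero_le_one]; linarith) j
  rw [Real.sq_sqrt (by linarith)] at he
  have hmemj : j ∈ range l := mem_range.2 hjl
  set s := sGauge (m j) (v j)
  have hsj : s ^ 2 * 2 ^ (j + 1) ≤ 2 := by
    have := single_le_sum (f := fun i => sGauge (m i) (v i) ^ 2 * 2 ^ (i + 1))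
      (fun i _ => by positivity) hmemj
    have h1 : η ≤ 1 := min_le_right _ _
    simp only [← energy.eq_def] at this ⊢
    change s ^ 2 * 2 ^ (j + 1) ≤ energy m l v at this
    linarith
  have hs2 : s * 2 ^ (j + 1) ≤ 2 * 2 ^ j * 2 := by
    have h0 : 0 ≤ s := sGauge_nonneg _
    have hp : (1 : ℝ) ≤ 2 ^ (j + 1) := one_le_pow₀ one_le_two
    have : (s * 2 ^ (j + 1)) ^ 2 ≤ (2 * 2 ^ (j + 1)) ^ 2 := by
      calc (s * 2 ^ (j + 1)) ^ 2 = s ^ 2 * 2 ^ (j + 1) * 2 ^ (j + 1) := by ring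
        _ ≤ 2 * 2 ^ (j + 1) := mul_le_mul_of_nonneg_right hsj (by positivity)
        _ ≤ (2 * 2 ^ (j + 1)) ^ 2 := le_self_pow₀ (by linarith) two_ne_zero
    have := pow_le_pow_iff_left₀ (by positivity) (by positivity) two_ne_zero |>.1 this
    linarith [show (2:ℝ) * 2 ^ (j + 1) = 2 * 2 ^ j * 2 by ring]
  let vp := Function.update v j (v j + h)
  let vm := Function.update v j (v j - h)
  have hsum : ∀ k : X, ∑ i ∈ range l, Function.update v j (v j + k) i = x + k := by
    intro k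
    rw [sum_update_of_mem hmemj, ← hv, ← add_sum_erase _ _ hmemj, sdiff_singleton_eq_erase]
    abel
  have hen : ∀ k : X, energy m l (Function.update v j (v j + k)) = energy m l v
      + (sGauge (m j) (v j + k) ^ 2 - s ^ 2) * 2 ^ (j + 1) := by
    intro k
    simp only [energy]
    rw [← add_sum_erase _ _ hmemj, ← add_sum_erase _ _ hmemj, Function.update_self]
    rw [sum_congr rfl fun i hi => by rw [Function.update_of_ne (ne_of_mem_erase hi)]]
    ring
  have hp := norm'_sq_le m hm l vp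
  have hq := norm'_sq_le m hm l (Function.update v j (v j + -h))
  rw [hsum, hen] at hp
  rw [hsum, hen, ← sub_eq_add_neg, ← sub_eq_add_neg] at hq
  have hS := mul_le_mul_of_nonneg_right (sGauge_sq_smooth (hm j) (hε j) (by positivity) (v j) h)
    (by positivity : (0:ℝ) ≤ 2 ^ (j + 1))
  have hn := norm_nonneg h
  have hE1 : 64 * (1 / 4 : ℝ) ^ j * s * ‖h‖ * 2 ^ (j + 1) ≤ ε * τ := by
    have h4 : (1 / 4 : ℝ) ^ j * 2 ^ j = (1 / 2) ^ j := by rw [← mul_pow]; norm_num
    calc 64 * (1 / 4 : ℝ) ^ j * s * ‖h‖ * 2 ^ (j + 1)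
        = 64 * (1 / 4 : ℝ) ^ j * (s * 2 ^ (j + 1)) * ‖h‖ := by ring
      _ ≤ 64 * (1 / 4 : ℝ) ^ j * (2 * 2 ^ j * 2) * τ :=
          mul_le_mul (mul_le_mul_of_nonneg_left hs2 (by positivity)) hh hn (by positivity)
      _ = 256 * ((1 / 4 : ℝ) ^ j * 2 ^ j) * τ := by ring
      _ ≤ ε * τ := by rw [h4]; exact mul_le_mul_of_nonneg_right (by linarith) hτ.le
  have hE2 : C * ‖h‖ ^ 2 ≤ ε * τ := by
    calc C * ‖h‖ ^ 2 ≤ C * (τ * τ) := by
          rw [← pow_two]; exact mul_le_mul_of_nonneg_left (pow_le_pow_left₀ hn hh 2) hCpos.le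
      _ = C * τ * τ := by ring
      _ ≤ ε * τ := mul_le_mul_of_nonneg_right
          (by rw [le_div_iff₀ hCpos] at hτ0; linarith) hτ.le
  have hετ : 0 < ε * τ := by positivity
  have hsq : norm' m (x + h) ^ 2 + norm' m (x - h) ^ 2 ≤ 2 + 2 * η + 2 * (ε * τ) := by
    rw [hC] at hE2
    linarith
  set A := norm' m (x + h)
  set B := norm' m (x - h)
  have hAB : (A + B) ^ 2 ≤ (2 + (η + ε * τ)) ^ 2 := by
    linarith [sq_nonneg (A - B), sq_nonneg (η + ε * τ)]
  have := pow_le_pow_iff_left₀ (add_nonneg (norm'_nonneg m _) (norm'_nonneg m _))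
    (by linarith) two_ne_zero |>.1 hAB
  linarith [min_le_left η₁ 1]

end combine

end Ren

open Ren in
theorem renorm_of_not_flat (h : ¬ Flat X) : UniformlySmoothRenorm X := by
  have hch : ∀ j : ℕ, ∃ n : ℕ, 1 ≤ n ∧ pot 1 n (0 : X) ≤ (1 / 4 : ℝ) ^ j * n := by
    intro j
    by_contra hc
    push Not at hc
    exact h ⟨(1 / 4 : ℝ) ^ j, by positivity, hc⟩
  choose m hm hε using hch
  have hbal : Balanced ℝ (Ren.ball m : Set X) := by
    refine balanced_iff_smul_mem.2 fun a ha x hx => ?_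
    obtain ⟨l, v, hv, he⟩ := hx
    refine ⟨l, fun i => a • v i, by rw [← Finset.smul_sum, hv], ?_⟩
    have hs : ∀ i, sGauge (m i) (a • v i) = |a| * sGauge (m i) (v i) := by
      intro i
      rcases le_total 0 a with h0 | h0
      · rw [sGauge_smul h0, abs_of_nonneg h0]
      · rw [← sGauge_neg, ← neg_smul, sGauge_smul (neg_nonneg.2 h0), abs_of_nonpos h0]
    refine lt_of_le_of_lt ?_ he
    simp only [energy, hs]
    refine Finset.sum_le_sum fun i _ => ?_
    rw [mul_pow, mul_assoc]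
    refine mul_le_of_le_one_left (by positivity) ?_
    rw [Real.norm_eq_abs] at ha
    exact pow_le_one₀ (abs_nonneg a) ha
  have hlow : ∀ x : X, ‖x‖ ≤ norm' m x := fun x => by
    have := le_gauge_of_subset_closedBall (ball_absorbent m hm) zero_le_one (ball_subset m hm)
      (x := x)
    simpa [norm'] using this
  refine ⟨gaugeSeminorm hbal (ball_convex m hm) (ball_absorbent m hm), 1, 2, one_pos, two_pos,
    fun x => ⟨?_, ?_⟩, fun ε hε0 => ?_⟩
  · change 1 * ‖x‖ ≤ norm' m x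
    simpa using hlow x
  · change norm' m x ≤ 2 * ‖x‖
    have := gauge_mono
      (absorbent_nhds_zero (Metric.ball_mem_nhds (0 : X) (by norm_num : (0:ℝ) < 1 / 2)))
      (show Metric.ball (0 : X) (1 / 2) ⊆ Ren.ball m from
        fun y hy => mem_ball_of_norm m hm (mem_ball_zero_iff.1 hy)) x
    rw [gauge_ball (by norm_num : (0:ℝ) ≤ 1 / 2)] at this
    unfold norm'
    linarith [show ‖x‖ / (1 / 2) = 2 * ‖x‖ by ring]
  · obtain ⟨τ₀, hτ₀, hsm⟩ := norm'_smooth m hm hε hε0
    exact ⟨τ₀, hτ₀, fun τ h1 h2 x y hx hy => hsm τ h1 h2 x y hx ((hlow y).trans (le_of_eq hy))⟩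

end Vale.Agent.P125.Pos
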